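import Mathlib

/-!
Complete minors, exactly as in the problem file: `t` pairwise disjoint nonempty vertex sets, each
inducing a connected subgraph, with an edge of `G` between any two of them.
-/

namespace Vale.Agent.Lib.P060

/-- `G` has a `K_t` minor. -/
def HasCliqueMinor {V : Type*} (G : SimpleGraph V) (t : ℕ) : Prop :=
  ∃ B : Fin t → Set V,
    (∀ i, (B i).Nonempty) ∧
    (∀ i j, i ≠ j → Disjoint (B i) (B j)) ∧
    (∀ i, (G.induce (B i)).Connected) ∧
    (∀ i j, i ≠ j → ∃ x ∈ B i, ∃ y ∈ B j, G.Adj x y)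

end Vale.Agent.Lib.P060
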