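import Vale.Agent.Lib.P060.Perm
import Vale.Agent.Lib.P060.Defs

/-!
Graphs in which every vertex has few non-neighbours have a perfect connected matching.
-/

set_option linter.unusedSectionVars false

namespace Vale.Agent.Lib.P060

open Finset

variable {V : Type*} [Fintype V] [DecidableEq V] (G : SimpleGraph V) [DecidableRel G.Adj]

/-- Non-neighbours of `v`, other than `v`. -/
def NN (v : V) : Finset V := univ.filter fun w => w ≠ v ∧ ¬ G.Adj v w

theorem mem_NN {v w : V} : w ∈ NN G v ↔ w ≠ v ∧ ¬ G.Adj v w := by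
  simp [NN]

theorem NN_symm {v w : V} : w ∈ NN G v ↔ v ∈ NN G w := by
  simp only [mem_NN]
  constructor
  · rintro ⟨h1, h2⟩
    exact ⟨h1.symm, fun h => h2 h.symm⟩
  · rintro ⟨h1, h2⟩
    exact ⟨h1.symm, fun h => h2 h.symm⟩

theorem adj_of_not_NN {v w : V} (hne : w ≠ v) (h : w ∉ NN G v) : G.Adj v w := by
  by_contra hc
  exact h ((mem_NN G).mpr ⟨hne, hc⟩)

theorem NN_card_of_degree (d : ℕ) (v : V) (h : Fintype.card V ≤ G.degree v + 1 + d) :
    (NN G v).card ≤ d := by
  have h1 : NN G v = univ \ insert v (G.neighborFinset v) := by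
    ext w
    simp only [mem_NN, mem_sdiff, mem_univ, true_and, mem_insert, SimpleGraph.mem_neighborFinset]
    tauto
  rw [h1, card_sdiff_of_subset (subset_univ _), card_univ, card_insert_of_notMem (by simp),
    SimpleGraph.card_neighborFinset_eq_degree]
  omega

variable {G} {d : ℕ} {n : ℕ}

/-- Double counting. -/
theorem sum_inter_le (hd : ∀ v, (NN G v).card ≤ d) (f : Fin n → V) (hf : Function.Injective f)
    (A : Finset V) : ∑ i, (NN G (f i) ∩ A).card ≤ d * A.card := by
  have h1 : ∀ i, (NN G (f i) ∩ A).card = ∑ w ∈ A, if w ∈ NN G (f i) then 1 else 0 := by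
    intro i
    rw [Finset.inter_comm, ← Finset.filter_mem_eq_inter, Finset.card_filter]
  simp_rw [h1]
  rw [Finset.sum_comm]
  calc ∑ w ∈ A, ∑ i, (if w ∈ NN G (f i) then 1 else 0)
      ≤ ∑ _w ∈ A, d := by
        refine sum_le_sum fun w _ => ?_
        rw [← Finset.card_filter]
        calc (univ.filter fun i => w ∈ NN G (f i)).card
            ≤ (NN G w).card := by
              refine Finset.card_le_card_of_injOn f ?_ (hf.injOn)
              intro i hi
              simp only [coe_filter, mem_univ, true_and, Set.mem_ofPred_eq] at hi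
              exact (NN_symm G).mp hi
          _ ≤ d := hd w
    _ = d * A.card := by simp [mul_comm]

/-- Few indices have a large common non-neighbourhood or are non-neighbours of `a`. -/
theorem bad_count (hd : ∀ v, (NN G v).card ≤ d) (a : V) (f : Fin n → V) (hf : Function.Injective f) :
    (univ.filter fun j => f j ∈ NN G a ∨ 64 * d ^ 2 < n * (NN G a ∩ NN G (f j)).card).card
      ≤ d + n / 64 := by
  have h1 : (univ.filter fun j => f j ∈ NN G a).card ≤ d := by
    calc _ ≤ (NN G a).card := by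
          refine Finset.card_le_card_of_injOn f ?_ (hf.injOn)
          intro i hi
          simpa using hi
      _ ≤ d := hd a
  have h2 : (univ.filter fun j => 64 * d ^ 2 < n * (NN G a ∩ NN G (f j)).card).card ≤ n / 64 := by
    rcases Nat.eq_zero_or_pos d with hd0 | hdpos
    · subst hd0
      have : (univ.filter fun j => 64 * 0 ^ 2 < n * (NN G a ∩ NN G (f j)).card) = ∅ := by
        apply Finset.filter_eq_empty_iff.mpr
        intro j _
        have h3 : (NN G a).card ≤ 0 := hd a
        have h4 : NN G a = ∅ := by simpa using h3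
        simp [h4]
      rw [this]
      simp
    · set L := univ.filter fun j => 64 * d ^ 2 < n * (NN G a ∩ NN G (f j)).card with hL
      have h3 : ∑ j, (NN G (f j) ∩ NN G a).card ≤ d * (NN G a).card := sum_inter_le hd f hf _
      have h4 : ∑ j ∈ L, (NN G a ∩ NN G (f j)).card ≤ d * d := by
        calc ∑ j ∈ L, (NN G a ∩ NN G (f j)).card
            ≤ ∑ j, (NN G a ∩ NN G (f j)).card :=
              Finset.sum_le_sum_of_subset (subset_univ _)
          _ = ∑ j, (NN G (f j) ∩ NN G a).card := by simp_rw [Finset.inter_comm]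
          _ ≤ d * (NN G a).card := h3
          _ ≤ d * d := Nat.mul_le_mul_left _ (hd a)
      have h5 : L.card * (64 * d ^ 2) ≤ n * ∑ j ∈ L, (NN G a ∩ NN G (f j)).card := by
        rw [Finset.mul_sum, ← smul_eq_mul, ← Finset.sum_const]
        refine sum_le_sum fun j hj => ?_
        exact (mem_filter.mp hj).2.le
      have h6 : L.card * 64 * d ^ 2 ≤ n * d ^ 2 := by
        calc L.card * 64 * d ^ 2 = L.card * (64 * d ^ 2) := by ring
          _ ≤ n * ∑ j ∈ L, (NN G a ∩ NN G (f j)).card := h5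
          _ ≤ n * (d * d) := Nat.mul_le_mul_left _ h4
          _ = n * d ^ 2 := by ring
      have h7 : L.card * 64 ≤ n := Nat.le_of_mul_le_mul_right h6 (by positivity)
      exact (Nat.le_div_iff_mul_le (by norm_num)).mpr h7
  calc _ ≤ (univ.filter fun j => f j ∈ NN G a).card +
        (univ.filter fun j => 64 * d ^ 2 < n * (NN G a ∩ NN G (f j)).card).card := by
        rw [Finset.filter_or]
        exact card_union_le _ _
    _ ≤ _ := Nat.add_le_add h1 h2

/-- The weighted square sum behind the conflict count. -/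
theorem sum_sq_le (hd : ∀ v, (NN G v).card ≤ d) (a : V) (f : Fin n → V) (hf : Function.Injective f)
    (L : Finset (Fin n)) (hL : ∀ j ∈ L, n * (NN G a ∩ NN G (f j)).card ≤ 64 * d ^ 2) :
    n * ∑ j ∈ L, (NN G a ∩ NN G (f j)).card ^ 2 ≤ 64 * d ^ 4 := by
  have h3 : ∑ j, (NN G (f j) ∩ NN G a).card ≤ d * (NN G a).card := sum_inter_le hd f hf _
  have h4 : ∑ j ∈ L, (NN G a ∩ NN G (f j)).card ≤ d * d := by
    calc ∑ j ∈ L, (NN G a ∩ NN G (f j)).card
        ≤ ∑ j, (NN G a ∩ NN G (f j)).card :=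
          Finset.sum_le_sum_of_subset (subset_univ _)
      _ = ∑ j, (NN G (f j) ∩ NN G a).card := by simp_rw [Finset.inter_comm]
      _ ≤ d * (NN G a).card := h3
      _ ≤ d * d := Nat.mul_le_mul_left _ (hd a)
  calc n * ∑ j ∈ L, (NN G a ∩ NN G (f j)).card ^ 2
      = ∑ j ∈ L, (n * (NN G a ∩ NN G (f j)).card) * (NN G a ∩ NN G (f j)).card := by
        rw [Finset.mul_sum]
        refine sum_congr rfl fun j _ => by ring
    _ ≤ ∑ j ∈ L, (64 * d ^ 2) * (NN G a ∩ NN G (f j)).card :=
        sum_le_sum fun j hj => Nat.mul_le_mul_right _ (hL j hj)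
    _ = (64 * d ^ 2) * ∑ j ∈ L, (NN G a ∩ NN G (f j)).card := by rw [Finset.mul_sum]
    _ ≤ (64 * d ^ 2) * (d * d) := Nat.mul_le_mul_left _ h4
    _ = 64 * d ^ 4 := by ring

/-- Number of indices whose image lies in a set. -/
theorem card_preimage_le (f : Fin n → V) (hf : Function.Injective f) (A : Finset V) :
    (univ.filter fun k => f k ∈ A).card ≤ A.card := by
  refine Finset.card_le_card_of_injOn f ?_ (hf.injOn)
  intro i hi
  simpa using hi

section Pairing

variable (G)

variable (X Y : Fin n → V)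

/-- Common non-neighbours. -/
def WW (p : Fin n × Fin n) : Finset V := NN G (X p.1) ∩ NN G (Y p.2)

/-- Forbidden single assignments. -/
def badSet (d : ℕ) : Finset (Fin n × Fin n) :=
  univ.filter fun p => X p.1 ∈ NN G (Y p.2) ∨ 64 * d ^ 2 < n * (WW G X Y p).card

/-- Forbidden pairs of assignments. -/
def confSet (d : ℕ) : Finset ((Fin n × Fin n) × (Fin n × Fin n)) :=
  univ.filter fun x => x.1.1 ≠ x.2.1 ∧ x.1.2 ≠ x.2.2 ∧ x.1 ∉ badSet G X Y d ∧ x.2 ∉ badSet G X Y d ∧
    X x.2.1 ∈ WW G X Y x.1 ∧ Y x.2.2 ∈ WW G X Y x.1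

variable {G X Y}

theorem mem_badSet {p : Fin n × Fin n} : p ∈ badSet G X Y d ↔
    X p.1 ∈ NN G (Y p.2) ∨ 64 * d ^ 2 < n * (NN G (X p.1) ∩ NN G (Y p.2)).card := by
  rw [badSet, mem_filter]
  simp [WW]

theorem mem_confSet {x : (Fin n × Fin n) × (Fin n × Fin n)} : x ∈ confSet G X Y d ↔
    x.1.1 ≠ x.2.1 ∧ x.1.2 ≠ x.2.2 ∧ x.1 ∉ badSet G X Y d ∧ x.2 ∉ badSet G X Y d ∧
    (X x.2.1 ∈ NN G (X x.1.1) ∧ X x.2.1 ∈ NN G (Y x.1.2)) ∧
    (Y x.2.2 ∈ NN G (X x.1.1) ∧ Y x.2.2 ∈ NN G (Y x.1.2)) := by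
  rw [confSet, mem_filter]
  simp [WW]

theorem conf_swap {x} (hx : x ∈ confSet G X Y d) : x.swap ∈ confSet G X Y d := by
  rw [mem_confSet] at hx ⊢
  obtain ⟨h1, h2, h3, h4, ⟨h5, h6⟩, h7, h8⟩ := hx
  refine ⟨h1.symm, h2.symm, h4, h3, ⟨(NN_symm G).mp h5, (NN_symm G).mp h7⟩,
    (NN_symm G).mp h6, (NN_symm G).mp h8⟩

end Pairing

/-- Conflict count, first row. -/
theorem conf_row (hd : ∀ v, (NN G v).card ≤ d) (X Y : Fin n → V) (hX : Function.Injective X)
    (hY : Function.Injective Y) (r : Fin n) :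
    n * ((confSet G X Y d).filter fun x => x.1.1 = r).card ≤ 64 * d ^ 4 := by
  set L := univ.filter fun j => (r, j) ∉ badSet G X Y d with hL
  have hL1 : ∀ j ∈ L, n * (NN G (X r) ∩ NN G (Y j)).card ≤ 64 * d ^ 2 := by
    intro j hj
    have h1 := (mem_filter.mp hj).2
    rw [mem_badSet, not_or, not_lt] at h1
    exact h1.2
  have h2 := sum_sq_le hd (X r) Y hY L hL1
  have h3 : ((confSet G X Y d).filter fun x => x.1.1 = r).card
      ≤ ∑ j ∈ L, (NN G (X r) ∩ NN G (Y j)).card ^ 2 := by
    have h4 : ((confSet G X Y d).filter fun x => x.1.1 = r).card ≤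
        (L.sigma fun j => (univ.filter fun k => X k ∈ NN G (X r) ∩ NN G (Y j)) ×ˢ
          (univ.filter fun l => Y l ∈ NN G (X r) ∩ NN G (Y j))).card := by
      refine Finset.card_le_card_of_injOn (fun x => ⟨x.1.2, (x.2.1, x.2.2)⟩) ?_ ?_
      · intro x hx
        simp only [coe_filter, Set.mem_ofPred_eq, mem_confSet] at hx
        obtain ⟨⟨-, -, h3, -, h5, h6⟩, rfl⟩ := hx
        simp only [coe_sigma, Set.mem_sigma_iff, mem_coe, mem_product, mem_filter, mem_univ, true_and, hL,
          mem_inter]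
        exact ⟨h3, h5, h6⟩
      · rintro ⟨⟨i, j⟩, ⟨k, l⟩⟩ hx ⟨⟨i', j'⟩, ⟨k', l'⟩⟩ hy hxy
        simp only [coe_filter, Set.mem_ofPred_eq] at hx hy
        simp only [Sigma.mk.injEq, heq_eq_eq, Prod.mk.injEq] at hxy
        obtain ⟨rfl, rfl, rfl⟩ := hxy
        have h1 : i = r := hx.2
        have h2 : i' = r := hy.2
        rw [h1, h2]
    refine h4.trans ?_
    rw [card_sigma]
    refine sum_le_sum fun j _ => ?_
    rw [card_product, sq]
    exact Nat.mul_le_mul (card_preimage_le X hX _) (card_preimage_le Y hY _)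
  calc _ ≤ n * ∑ j ∈ L, (NN G (X r) ∩ NN G (Y j)).card ^ 2 := Nat.mul_le_mul_left _ h3
    _ ≤ _ := h2

/-- Conflict count, first column. -/
theorem conf_col (hd : ∀ v, (NN G v).card ≤ d) (X Y : Fin n → V) (hX : Function.Injective X)
    (hY : Function.Injective Y) (c : Fin n) :
    n * ((confSet G X Y d).filter fun x => x.1.2 = c).card ≤ 64 * d ^ 4 := by
  set L := univ.filter fun i => (i, c) ∉ badSet G X Y d with hL
  have hL1 : ∀ i ∈ L, n * (NN G (Y c) ∩ NN G (X i)).card ≤ 64 * d ^ 2 := by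
    intro i hi
    have h1 := (mem_filter.mp hi).2
    rw [mem_badSet, not_or, not_lt] at h1
    rw [Finset.inter_comm]
    exact h1.2
  have h2 := sum_sq_le hd (Y c) X hX L hL1
  have h3 : ((confSet G X Y d).filter fun x => x.1.2 = c).card
      ≤ ∑ i ∈ L, (NN G (Y c) ∩ NN G (X i)).card ^ 2 := by
    have h4 : ((confSet G X Y d).filter fun x => x.1.2 = c).card ≤
        (L.sigma fun i => (univ.filter fun k => X k ∈ NN G (Y c) ∩ NN G (X i)) ×ˢ
          (univ.filter fun l => Y l ∈ NN G (Y c) ∩ NN G (X i))).card := by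
      refine Finset.card_le_card_of_injOn (fun x => ⟨x.1.1, (x.2.1, x.2.2)⟩) ?_ ?_
      · intro x hx
        simp only [coe_filter, Set.mem_ofPred_eq, mem_confSet] at hx
        obtain ⟨⟨-, -, h3, -, h5, h6⟩, rfl⟩ := hx
        simp only [coe_sigma, Set.mem_sigma_iff, mem_coe, mem_product, mem_filter, mem_univ, true_and, hL,
          mem_inter]
        exact ⟨h3, ⟨h5.2, h5.1⟩, ⟨h6.2, h6.1⟩⟩
      · rintro ⟨⟨i, j⟩, ⟨k, l⟩⟩ hx ⟨⟨i', j'⟩, ⟨k', l'⟩⟩ hy hxy
        simp only [coe_filter, Set.mem_ofPred_eq] at hx hy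
        simp only [Sigma.mk.injEq, heq_eq_eq, Prod.mk.injEq] at hxy
        obtain ⟨rfl, rfl, rfl⟩ := hxy
        have h1 : j = c := hx.2
        have h2 : j' = c := hy.2
        rw [h1, h2]
    refine h4.trans ?_
    rw [card_sigma]
    refine sum_le_sum fun j _ => ?_
    rw [card_product, sq]
    exact Nat.mul_le_mul (card_preimage_le X hX _) (card_preimage_le Y hY _)
  calc _ ≤ n * ∑ i ∈ L, (NN G (Y c) ∩ NN G (X i)).card ^ 2 := Nat.mul_le_mul_left _ h3
    _ ≤ _ := h2

/-- The swap symmetry of the conflict set transports the counts to the second pair. -/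
theorem conf_swap_card (X Y : Fin n → V) (P : (Fin n × Fin n) × (Fin n × Fin n) → Prop) [DecidablePred P] :
    ((confSet G X Y d).filter fun x => P x.swap).card = ((confSet G X Y d).filter P).card := by
  refine Finset.card_nbij' Prod.swap Prod.swap ?_ ?_ ?_ ?_
  · intro x hx
    simp only [coe_filter, Set.mem_ofPred_eq] at hx ⊢
    exact ⟨conf_swap hx.1, hx.2⟩
  · intro x hx
    simp only [coe_filter, Set.mem_ofPred_eq] at hx ⊢
    exact ⟨conf_swap hx.1, by simpa using hx.2⟩
  · intro x _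
    simp
  · intro x _
    simp

/-- Numerics: from the degree bound to the counting hypotheses. -/
theorem numerics_T (hdn : (64 * d) ^ 4 ≤ n ^ 3) (hn : 0 < n) (c : ℕ) (hc : n * c ≤ 64 * d ^ 4) :
    c ≤ n ^ 2 / 2 ^ 18 := by
  rw [Nat.le_div_iff_mul_le (by positivity)]
  have h1 : n * (c * 2 ^ 18) ≤ n * n ^ 2 := by
    calc n * (c * 2 ^ 18) = (n * c) * 2 ^ 18 := by ring
      _ ≤ (64 * d ^ 4) * 2 ^ 18 := Nat.mul_le_mul_right _ hc
      _ = (64 * d) ^ 4 := by ring
      _ ≤ n ^ 3 := hdn
      _ = n * n ^ 2 := by ring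
  exact Nat.le_of_mul_le_mul_left h1 hn

theorem numerics_Tn (hn : 2 ≤ n) : 64 * (n ^ 2 / 2 ^ 18) ≤ n * (n - 1) := by
  have h1 : n ^ 2 / 2 ^ 18 * 2 ^ 18 ≤ n ^ 2 := Nat.div_mul_le_self _ _
  obtain ⟨k, rfl⟩ : ∃ k, n = k + 2 := ⟨n - 2, by omega⟩
  have h2 : k + 2 - 1 = k + 1 := by omega
  rw [h2]
  nlinarith

theorem numerics_d (hdn : (64 * d) ^ 4 ≤ n ^ 3) : 64 * d ≤ n := by
  by_contra hc
  push Not at hc
  have h1 : (n + 1) ^ 4 ≤ (64 * d) ^ 4 := Nat.pow_le_pow_left hc 4
  have h2 : n ^ 3 < (n + 1) ^ 4 := by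
    calc n ^ 3 < (n + 1) ^ 3 := Nat.pow_lt_pow_left (by omega) (by norm_num)
      _ ≤ (n + 1) ^ 4 := Nat.pow_le_pow_right (by omega) (by norm_num)
  omega

/-- **Main pairing.** Few non-neighbours give a bijection whose pairs form a connected matching. -/
theorem exists_pairing (hd : ∀ v, (NN G v).card ≤ d) (hdn : (64 * d) ^ 4 ≤ n ^ 3)
    (X Y : Fin n → V) (hX : Function.Injective X) (hY : Function.Injective Y)
    (hXY : ∀ i j, X i ≠ Y j) :
    ∃ σ : Pm n, (∀ i, G.Adj (X i) (Y (σ i))) ∧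
      ∀ i k, i ≠ k → G.Adj (X i) (X k) ∨ G.Adj (X i) (Y (σ k)) ∨ G.Adj (Y (σ i)) (X k) ∨
        G.Adj (Y (σ i)) (Y (σ k)) := by
  classical
  -- avoidance implies the conclusion
  have key : (∃ σ : Pm n, (∀ p ∈ badSet G X Y d, σ p.1 ≠ p.2) ∧
      ∀ x ∈ confSet G X Y d, ¬ (σ x.1.1 = x.1.2 ∧ σ x.2.1 = x.2.2)) →
      ∃ σ : Pm n, (∀ i, G.Adj (X i) (Y (σ i))) ∧
      ∀ i k, i ≠ k → G.Adj (X i) (X k) ∨ G.Adj (X i) (Y (σ k)) ∨ G.Adj (Y (σ i)) (X k) ∨
        G.Adj (Y (σ i)) (Y (σ k)) := by
    rintro ⟨σ, h1, h2⟩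
    have hnb : ∀ i, (i, σ i) ∉ badSet G X Y d := fun i hb => h1 _ hb rfl
    refine ⟨σ, fun i => ?_, fun i k hik => ?_⟩
    · have h3 := hnb i
      rw [mem_badSet, not_or] at h3
      exact (adj_of_not_NN G (hXY _ _) h3.1).symm
    · have h3 := h2 ((i, σ i), (k, σ k))
      have hσ : σ i ≠ σ k := fun h => hik (σ.injective h)
      by_contra hc
      push Not at hc
      obtain ⟨c1, c2, c3, c4⟩ := hc
      refine h3 ?_ ⟨rfl, rfl⟩
      rw [mem_confSet]
      refine ⟨hik, hσ, hnb i, hnb k, ⟨?_, ?_⟩, ⟨?_, ?_⟩⟩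
      · simp only [mem_NN]
        exact ⟨fun h => hik (hX h).symm, c1⟩
      · simp only [mem_NN]
        exact ⟨hXY _ _, c3⟩
      · simp only [mem_NN]
        exact ⟨(hXY _ _).symm, c2⟩
      · simp only [mem_NN]
        exact ⟨fun h => hσ (hY h).symm, c4⟩
  apply key
  rcases Nat.eq_zero_or_pos d with hd0 | hdpos
  · -- no non-neighbours at all
    subst hd0
    have hN : ∀ v, NN G v = ∅ := by
      intro v
      have := hd v
      simpa using this
    refine ⟨1, ?_, ?_⟩
    · intro p hp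
      rw [mem_badSet] at hp
      simp [hN] at hp
    · intro x hx
      rw [mem_confSet] at hx
      simp [hN] at hx
  · have hn256 : 256 ≤ n := by
      by_contra hc
      push Not at hc
      have h1 : (64 * 1) ^ 4 ≤ (64 * d) ^ 4 := Nat.pow_le_pow_left (by omega) 4
      have h2 : n ^ 3 ≤ 255 ^ 3 := Nat.pow_le_pow_left (by omega) 3
      omega
    have hnpos : 0 < n := by omega
    have h64 := numerics_d hdn
    refine exists_perm_avoiding (by omega) (badSet G X Y d) (confSet G X Y d) ?_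
      (d + n / 64) (n ^ 2 / 2 ^ 18) ?_ ?_ ?_ ?_ ?_ ?_ (by omega) (numerics_Tn (by omega))
    · intro x hx
      rw [mem_confSet] at hx
      exact ⟨hx.1, hx.2.1⟩
    · intro r
      calc _ ≤ (univ.filter fun j => Y j ∈ NN G (X r) ∨
            64 * d ^ 2 < n * (NN G (X r) ∩ NN G (Y j)).card).card := by
            refine Finset.card_le_card_of_injOn (fun p => p.2) ?_ ?_
            · intro p hp
              simp only [coe_filter, Set.mem_ofPred_eq, mem_badSet, mem_univ, true_and] at hp ⊢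
              obtain ⟨h1, rfl⟩ := hp
              rcases h1 with h1 | h1
              · exact Or.inl ((NN_symm G).mp h1)
              · exact Or.inr h1
            · intro p hp q hq hpq
              simp only [coe_filter, Set.mem_ofPred_eq] at hp hq
              exact Prod.ext (hp.2.trans hq.2.symm) hpq
        _ ≤ _ := bad_count hd (X r) Y hY
    · intro c
      calc _ ≤ (univ.filter fun j => X j ∈ NN G (Y c) ∨
            64 * d ^ 2 < n * (NN G (Y c) ∩ NN G (X j)).card).card := by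
            refine Finset.card_le_card_of_injOn (fun p => p.1) ?_ ?_
            · intro p hp
              simp only [coe_filter, Set.mem_ofPred_eq, mem_badSet, mem_univ, true_and] at hp ⊢
              obtain ⟨h1, rfl⟩ := hp
              rcases h1 with h1 | h1
              · exact Or.inl h1
              · right
                rwa [Finset.inter_comm]
            · intro p hp q hq hpq
              simp only [coe_filter, Set.mem_ofPred_eq] at hp hq
              exact Prod.ext hpq (hp.2.trans hq.2.symm)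
        _ ≤ _ := bad_count hd (Y c) X hX
    · intro r
      exact numerics_T hdn hnpos _ (conf_row hd X Y hX hY r)
    · intro r
      have h := conf_swap_card (G := G) (d := d) X Y (fun x => x.1.1 = r)
      have h' : ((confSet G X Y d).filter fun x => x.2.1 = r).card
          = ((confSet G X Y d).filter fun x => x.1.1 = r).card := by
        simpa using h
      rw [h']
      exact numerics_T hdn hnpos _ (conf_row hd X Y hX hY r)
    · intro c
      exact numerics_T hdn hnpos _ (conf_col hd X Y hX hY c)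
    · intro c
      have h := conf_swap_card (G := G) (d := d) X Y (fun x => x.1.2 = c)
      have h' : ((confSet G X Y d).filter fun x => x.2.2 = c).card
          = ((confSet G X Y d).filter fun x => x.1.2 = c).card := by
        simpa using h
      rw [h']
      exact numerics_T hdn hnpos _ (conf_col hd X Y hX hY c)

end Vale.Agent.Lib.P060
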