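import Vale.Agent.Lib.P060.Dense

/-!
Assembly: the branch sets.
-/

set_option linter.unusedSectionVars false

namespace Vale.Agent.Lib.P060

open Finset

variable {V : Type*} [Fintype V] [DecidableEq V] {G : SimpleGraph V} [DecidableRel G.Adj] {d n : ℕ}

theorem connected_singleton (v : V) : (G.induce ({v} : Set V)).Connected := by
  simp

/-- Pairs from a pairing give a minor. -/
theorem minor_of_pairing (X Y : Fin n → V) (hX : Function.Injective X) (hY : Function.Injective Y)
    (hXY : ∀ i j, X i ≠ Y j)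
    (h1 : ∀ i, G.Adj (X i) (Y i))
    (h2 : ∀ i k, i ≠ k → G.Adj (X i) (X k) ∨ G.Adj (X i) (Y k) ∨ G.Adj (Y i) (X k) ∨
        G.Adj (Y i) (Y k)) :
    HasCliqueMinor G n := by
  refine ⟨fun i => {X i, Y i}, fun i => ⟨X i, by simp⟩, ?_, fun i =>
    SimpleGraph.induce_pair_connected_of_adj (h1 i), ?_⟩
  · intro i j hij
    rw [Set.disjoint_left]
    intro x hx hx'
    simp only [Set.mem_insert_iff, Set.mem_singleton_iff] at hx hx'
    rcases hx with rfl | rfl <;> rcases hx' with h | h
    · exact hij (hX h)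
    · exact hXY _ _ h
    · exact hXY _ _ h.symm
    · exact hij (hY h)
  · intro i j hij
    rcases h2 i j hij with h | h | h | h
    · exact ⟨X i, by simp, X j, by simp, h⟩
    · exact ⟨X i, by simp, Y j, by simp, h⟩
    · exact ⟨Y i, by simp, X j, by simp, h⟩
    · exact ⟨Y i, by simp, Y j, by simp, h⟩

/-- Pairs and one extra single vertex adjacent to each pair give a minor. -/
theorem minor_of_pairing_single (X Y : Fin n → V) (hX : Function.Injective X)
    (hY : Function.Injective Y) (hXY : ∀ i j, X i ≠ Y j)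
    (h1 : ∀ i, G.Adj (X i) (Y i))
    (h2 : ∀ i k, i ≠ k → G.Adj (X i) (X k) ∨ G.Adj (X i) (Y k) ∨ G.Adj (Y i) (X k) ∨
        G.Adj (Y i) (Y k))
    (v : V) (hvX : ∀ i, X i ≠ v) (hvY : ∀ i, Y i ≠ v) (hv : ∀ i, G.Adj v (Y i)) :
    HasCliqueMinor G (n + 1) := by
  let B : Fin (n + 1) → Set V := Fin.lastCases ({v} : Set V) (fun i => ({X i, Y i} : Set V))
  have hBl : B (Fin.last n) = {v} := by simp [B]
  have hBc : ∀ i : Fin n, B i.castSucc = {X i, Y i} := by intro i; simp [B]
  refine ⟨B, ?_, ?_, ?_, ?_⟩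
  · intro t
    refine Fin.lastCases ?_ (fun i => ?_) t
    · rw [hBl]; exact ⟨v, by simp⟩
    · rw [hBc]; exact ⟨X i, by simp⟩
  · intro s t
    refine Fin.lastCases ?_ (fun i => ?_) s <;> refine Fin.lastCases ?_ (fun j => ?_) t
    · intro h; exact absurd rfl h
    · intro _
      rw [hBl, hBc, Set.disjoint_singleton_left]
      simp only [Set.mem_insert_iff, Set.mem_singleton_iff, not_or]
      exact ⟨(hvX j).symm, (hvY j).symm⟩
    · intro _
      rw [hBl, hBc, Set.disjoint_singleton_right]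
      simp only [Set.mem_insert_iff, Set.mem_singleton_iff, not_or]
      exact ⟨(hvX i).symm, (hvY i).symm⟩
    · intro hij
      have hij' : i ≠ j := fun h => hij (by rw [h])
      rw [hBc, hBc, Set.disjoint_left]
      intro x hx hx'
      simp only [Set.mem_insert_iff, Set.mem_singleton_iff] at hx hx'
      rcases hx with rfl | rfl <;> rcases hx' with h | h
      · exact hij' (hX h)
      · exact hXY _ _ h
      · exact hXY _ _ h.symm
      · exact hij' (hY h)
  · intro t
    refine Fin.lastCases ?_ (fun i => ?_) t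
    · rw [hBl]; exact connected_singleton v
    · rw [hBc]; exact SimpleGraph.induce_pair_connected_of_adj (h1 i)
  · intro s t
    refine Fin.lastCases ?_ (fun i => ?_) s <;> refine Fin.lastCases ?_ (fun j => ?_) t
    · intro h; exact absurd rfl h
    · intro _
      rw [hBl, hBc]
      exact ⟨v, rfl, Y j, by simp, hv j⟩
    · intro _
      rw [hBl, hBc]
      exact ⟨Y i, by simp, v, rfl, (hv i).symm⟩
    · intro hij
      have hij' : i ≠ j := fun h => hij (by rw [h])
      rw [hBc, hBc]
      rcases h2 i j hij' with h | h | h | h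
      · exact ⟨X i, by simp, X j, by simp, h⟩
      · exact ⟨X i, by simp, Y j, by simp, h⟩
      · exact ⟨Y i, by simp, X j, by simp, h⟩
      · exact ⟨Y i, by simp, Y j, by simp, h⟩

/-- Enumerations of two disjoint sets of the same size. -/
theorem exists_enum (P Q : Finset V) (hP : P.card = n) (hQ : Q.card = n) (hPQ : Disjoint P Q) :
    ∃ X Y : Fin n → V, Function.Injective X ∧ Function.Injective Y ∧ (∀ i j, X i ≠ Y j) ∧
      (∀ i, X i ∈ P) ∧ (∀ i, Y i ∈ Q) := by
  let eP := P.equivFinOfCardEq hP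
  let eQ := Q.equivFinOfCardEq hQ
  refine ⟨fun i => (eP.symm i : V), fun i => (eQ.symm i : V), ?_, ?_, ?_, ?_, ?_⟩
  · intro i j h
    exact eP.symm.injective (Subtype.ext h)
  · intro i j h
    exact eQ.symm.injective (Subtype.ext h)
  · intro i j h
    have h' : (eP.symm i : V) = (eQ.symm j : V) := h
    have h3 : (eP.symm i : V) ∈ Q := by
      rw [h']
      exact (eQ.symm j).2
    exact (disjoint_left.mp hPQ) (eP.symm i).2 h3
  · intro i
    exact (eP.symm i).2
  · intro i
    exact (eQ.symm i).2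

/-- Two disjoint halves, the first containing a prescribed set. -/
theorem exists_halves (U D : Finset V) (hU : U.card = 2 * n) (hD : D ⊆ U) (hDn : D.card ≤ n) :
    ∃ P Q : Finset V, P.card = n ∧ Q.card = n ∧ Disjoint P Q ∧ D ⊆ P ∧ Q ⊆ U ∧ P ⊆ U := by
  obtain ⟨P, hDP, hPU, hP⟩ := Finset.exists_subsuperset_card_eq hD hDn (by omega : n ≤ U.card)
  refine ⟨P, U \ P, hP, ?_, disjoint_sdiff, hDP, sdiff_subset, hPU⟩
  rw [card_sdiff_of_subset hPU]
  omega

/-- **Dense theorem.** If every vertex of an `m`-vertex graph has at most `d` non-neighbours, with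
`2^29 d^4 ≤ m^3`, then the graph has a `K_⌈m/2⌉` minor. -/
theorem dense_minor (d : ℕ) (hdeg : ∀ v, Fintype.card V ≤ G.degree v + 1 + d)
    (h : 2 ^ 29 * d ^ 4 ≤ Fintype.card V ^ 3) :
    HasCliqueMinor G ((Fintype.card V + 1) / 2) := by
  classical
  have hd : ∀ v, (NN G v).card ≤ d := fun v => NN_card_of_degree G d v (hdeg v)
  set m := Fintype.card V with hm
  rcases Nat.even_or_odd' m with ⟨k, hk | hk⟩
  · -- even
    have hcard : (k * 2 + 1) / 2 = k := by omega
    have ht : (m + 1) / 2 = k := by rw [hk]; omega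
    rw [ht]
    have hdn : (64 * d) ^ 4 ≤ k ^ 3 := by
      have h1 : 2 ^ 29 * d ^ 4 ≤ (2 * k) ^ 3 := by rw [← hk]; exact h
      have h2 : (2 * k) ^ 3 = 8 * k ^ 3 := by ring
      rw [h2] at h1
      have h3 : (64 * d) ^ 4 = 2 ^ 24 * d ^ 4 := by ring
      rw [h3]
      omega
    obtain ⟨P, Q, hP, hQ, hPQ, -, -, -⟩ :=
      exists_halves (n := k) (univ : Finset V) ∅ (by rw [card_univ, ← hm, hk]) (by simp) (by simp)
    obtain ⟨X, Y, hX, hY, hXY, -, -⟩ := exists_enum P Q hP hQ hPQ
    obtain ⟨σ, h1, h2⟩ := exists_pairing hd hdn X Y hX hY hXY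
    refine minor_of_pairing X (Y ∘ σ) hX (hY.comp σ.injective) (fun i j => hXY _ _) h1 ?_
    intro i j hij
    exact h2 i j hij
  · -- odd
    have ht : (m + 1) / 2 = k + 1 := by rw [hk]; omega
    rw [ht]
    have hdn : (64 * d) ^ 4 ≤ k ^ 3 := by
      rcases Nat.eq_zero_or_pos k with hk0 | hkpos
      · subst hk0
        have h1 : 2 ^ 29 * d ^ 4 ≤ 1 := by
          have : m = 1 := by omega
          rw [this] at h
          simpa using h
        have hd0 : d = 0 := by
          by_contra hc
          have : 1 ≤ d ^ 4 := Nat.one_le_pow _ _ (Nat.pos_of_ne_zero hc)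
          omega
        simp [hd0]
      · have h1 : 2 ^ 29 * d ^ 4 ≤ (3 * k) ^ 3 := by
          calc _ ≤ m ^ 3 := h
            _ ≤ (3 * k) ^ 3 := Nat.pow_le_pow_left (by omega) 3
        have h2 : (3 * k) ^ 3 = 27 * k ^ 3 := by ring
        rw [h2] at h1
        have h3 : (64 * d) ^ 4 = 2 ^ 24 * d ^ 4 := by ring
        rw [h3]
        omega
    have hne : 0 < Fintype.card V := by omega
    obtain ⟨v⟩ := Fintype.card_pos_iff.mp hne
    have hDU : NN G v ⊆ univ.erase v := by
      intro w hw
      simp only [mem_erase, mem_univ, and_true]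
      exact ((mem_NN G).mp hw).1
    have hDn : (NN G v).card ≤ k := (hd v).trans (by have := numerics_d hdn; omega)
    obtain ⟨P, Q, hP, hQ, hPQ, hDP, hQU, hPU⟩ :=
      exists_halves (n := k) (univ.erase v) (NN G v)
        (by rw [card_erase_of_mem (mem_univ v), card_univ, ← hm, hk]; omega) hDU hDn
    obtain ⟨X, Y, hX, hY, hXY, hXP, hYQ⟩ := exists_enum P Q hP hQ hPQ
    obtain ⟨σ, h1, h2⟩ := exists_pairing hd hdn X Y hX hY hXY
    refine minor_of_pairing_single X (Y ∘ σ) hX (hY.comp σ.injective) (fun i j => hXY _ _) h1 ?_ v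
      ?_ ?_ ?_
    · intro i j hij
      exact h2 i j hij
    · intro i
      exact (mem_erase.mp (hPU (hXP i))).1
    · intro i
      exact (mem_erase.mp (hQU (hYQ (σ i)))).1
    · intro i
      have hy := hYQ (σ i)
      have hne' : Y (σ i) ≠ v := (mem_erase.mp (hQU hy)).1
      have hnot : Y (σ i) ∉ NN G v := fun hc => (disjoint_left.mp hPQ) (hDP hc) hy
      exact adj_of_not_NN G hne' hnot

end Vale.Agent.Lib.P060
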