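import Vale.Agent.Lib.P051.LLL

/-!
A lopsided local lemma for uniformly random permutations (Erdos-Spencer), in counting form:
forbidding few single assignments and few pairs of assignments leaves a permutation.
-/

set_option linter.unusedSectionVars false

namespace Vale.Agent.Lib.P060

open Finset Vale.Agent.Lib.P051

variable {n : ℕ}

/-- Permutations of `Fin n`. -/
abbrev Pm (n : ℕ) := Equiv.Perm (Fin n)

/-- Closure of a family of permutations under the value swap at the assignment `r ↦ c`. -/
def SwapClosed (Av : Finset (Pm n)) (r c : Fin n) : Prop :=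
  ∀ σ ∈ Av, σ r = c → ∀ c', Equiv.swap c c' * σ ∈ Av

theorem count_le_of_swap (Av : Finset (Pm n)) (r c c' : Fin n) (h : SwapClosed Av r c) :
    (Av.filter fun σ => σ r = c).card ≤ (Av.filter fun σ => σ r = c').card := by
  refine Finset.card_le_card_of_injOn (fun σ => Equiv.swap c c' * σ) ?_ ?_
  · intro σ hσ
    simp only [coe_filter, Set.mem_setOf_eq] at hσ ⊢
    refine ⟨h σ hσ.1 hσ.2 c', ?_⟩
    simp [hσ.2]
  · intro σ _ τ _ hστ
    exact mul_left_cancel hστ

/-- One assignment: conditional probability at most `1/n`. -/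
theorem count_one (Av : Finset (Pm n)) (r c : Fin n) (h : SwapClosed Av r c) :
    n * (Av.filter fun σ => σ r = c).card ≤ Av.card := by
  have h1 : Av.card = ∑ c' : Fin n, (Av.filter fun σ => σ r = c').card :=
    Finset.card_eq_sum_card_fiberwise (fun σ _ => Finset.mem_coe.mpr (mem_univ (σ r)))
  rw [h1]
  calc n * (Av.filter fun σ => σ r = c).card
      = ∑ _c' : Fin n, (Av.filter fun σ => σ r = c).card := by simp
    _ ≤ _ := Finset.sum_le_sum fun c' _ => count_le_of_swap Av r c c' h

/-- Two assignments: conditional probability at most `1/(n(n-1))`. -/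
theorem count_two (Av : Finset (Pm n)) (i j k l : Fin n) (hik : i ≠ k) (hjl : j ≠ l)
    (h1 : SwapClosed Av i j) (h2 : SwapClosed Av k l) :
    n * (n - 1) * (Av.filter fun σ => σ i = j ∧ σ k = l).card ≤ Av.card := by
  classical
  set Bv := Av.filter fun σ => σ k = l with hBv
  have hB : n * Bv.card ≤ Av.card := count_one Av k l h2
  have key : ∀ c', c' ≠ l → (Bv.filter fun σ => σ i = j).card ≤ (Bv.filter fun σ => σ i = c').card := by
    intro c' hc'
    refine Finset.card_le_card_of_injOn (fun σ => Equiv.swap j c' * σ) ?_ ?_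
    · intro σ hσ
      simp only [coe_filter, Set.mem_setOf_eq, hBv, mem_filter] at hσ ⊢
      obtain ⟨⟨hA, hl⟩, hj⟩ := hσ
      refine ⟨⟨h1 σ hA hj c', ?_⟩, ?_⟩
      · simp only [Equiv.Perm.coe_mul, Function.comp_apply, hl]
        exact Equiv.swap_apply_of_ne_of_ne hjl.symm hc'.symm
      · simp [hj]
    · intro σ _ τ _ hστ
      exact mul_left_cancel hστ
  have hsum : Bv.card = ∑ c' ∈ (univ.erase l : Finset (Fin n)), (Bv.filter fun σ => σ i = c').card := by
    refine Finset.card_eq_sum_card_fiberwise (fun σ hσ => ?_)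
    have hσ' : σ k = l := (mem_filter.mp (mem_coe.mp hσ)).2
    simp only [coe_erase, coe_univ, Set.mem_diff, Set.mem_univ, Set.mem_singleton_iff, true_and]
    intro hc
    exact hik (σ.injective (hc.trans hσ'.symm))
  have hcard : (univ.erase l : Finset (Fin n)).card = n - 1 := by
    simp
  have h3 : (n - 1) * (Bv.filter fun σ => σ i = j).card ≤ Bv.card := by
    rw [hsum, ← hcard, ← smul_eq_mul, ← Finset.sum_const]
    exact Finset.sum_le_sum fun c' hc' => key c' (Finset.ne_of_mem_erase hc')
  have h4 : (Av.filter fun σ => σ i = j ∧ σ k = l) = Bv.filter fun σ => σ i = j := by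
    ext σ
    simp only [hBv, mem_filter]
    tauto
  rw [h4]
  calc n * (n - 1) * (Bv.filter fun σ => σ i = j).card
      = n * ((n - 1) * (Bv.filter fun σ => σ i = j).card) := by ring
    _ ≤ n * Bv.card := Nat.mul_le_mul_left _ h3
    _ ≤ _ := hB

/-- The event that all assignments in `A` hold. -/
def evt (A : Finset (Fin n × Fin n)) : Finset (Pm n) :=
  univ.filter fun σ => ∀ p ∈ A, σ p.1 = p.2

/-- Swapping values cannot create an event that avoids the row and the column of the swap. -/
theorem evt_swap_imp (A : Finset (Fin n × Fin n)) (r c c' : Fin n) (σ : Pm n) (hσ : σ r = c)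
    (hA : ∀ p ∈ A, p.1 ≠ r ∧ p.2 ≠ c) (h : Equiv.swap c c' * σ ∈ evt A) : σ ∈ evt A := by
  simp only [evt, mem_filter, mem_univ, true_and, Equiv.Perm.coe_mul, Function.comp_apply] at h ⊢
  intro p hp
  have h1 := h p hp
  obtain ⟨h2, h3⟩ := hA p hp
  have h4 : σ p.1 ≠ c := by
    intro hc
    exact h2 (σ.injective (hc.trans hσ.symm))
  by_cases h5 : σ p.1 = c'
  · rw [h5, Equiv.swap_apply_right] at h1
    exact absurd h1.symm h3
  · rwa [Equiv.swap_apply_of_ne_of_ne h4 h5] at h1

/-- The index type: single forbidden assignments and forbidden pairs of assignments. -/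
abbrev EvIdx (n : ℕ) := (Fin n × Fin n) ⊕ ((Fin n × Fin n) × (Fin n × Fin n))

/-- The assignments of an event. -/
def asg : EvIdx n → Finset (Fin n × Fin n)
  | Sum.inl x => {x}
  | Sum.inr y => {y.1, y.2}

theorem asg_card_le (e : EvIdx n) : (asg e).card ≤ 2 := by
  cases e with
  | inl x => simp [asg]
  | inr y => exact Finset.card_le_two

/-- Two assignment sets share a row or a column. -/
def Touch (A B : Finset (Fin n × Fin n)) : Prop :=
  ∃ u ∈ A, ∃ v ∈ B, v.1 = u.1 ∨ v.2 = u.2

open Classical in
/-- Main lopsided statement. -/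
theorem exists_perm_avoiding (hn : 4 ≤ n) (bad : Finset (Fin n × Fin n))
    (conf : Finset ((Fin n × Fin n) × (Fin n × Fin n)))
    (hconf : ∀ x ∈ conf, x.1.1 ≠ x.2.1 ∧ x.1.2 ≠ x.2.2)
    (b T : ℕ)
    (hb1 : ∀ r, (bad.filter fun p => p.1 = r).card ≤ b)
    (hb2 : ∀ c, (bad.filter fun p => p.2 = c).card ≤ b)
    (hT1 : ∀ r, (conf.filter fun x => x.1.1 = r).card ≤ T)
    (hT2 : ∀ r, (conf.filter fun x => x.2.1 = r).card ≤ T)
    (hT3 : ∀ c, (conf.filter fun x => x.1.2 = c).card ≤ T)
    (hT4 : ∀ c, (conf.filter fun x => x.2.2 = c).card ≤ T)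
    (hbn : 32 * b ≤ n) (hTn : 64 * T ≤ n * (n - 1)) :
    ∃ σ : Pm n, (∀ p ∈ bad, σ p.1 ≠ p.2) ∧ (∀ x ∈ conf, ¬ (σ x.1.1 = x.1.2 ∧ σ x.2.1 = x.2.2)) := by
  have hnR : (4 : ℝ) ≤ n := by exact_mod_cast hn
  have hn1 : (3 : ℝ) ≤ ((n - 1 : ℕ) : ℝ) := by
    have : 3 ≤ n - 1 := by omega
    exact_mod_cast this
  have hnn : (12 : ℝ) ≤ (n : ℝ) * ((n - 1 : ℕ) : ℝ) := by nlinarith
  -- events
  let E : EvIdx n → Finset (Pm n) := fun e =>
    match e with
    | Sum.inl x => if x ∈ bad then evt {x} else ∅
    | Sum.inr y => if y ∈ conf then evt {y.1, y.2} else ∅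
  let p : EvIdx n → ℝ := fun e =>
    match e with
    | Sum.inl x => if x ∈ bad then 1 / (n : ℝ) else 0
    | Sum.inr y => if y ∈ conf then 1 / ((n : ℝ) * ((n - 1 : ℕ) : ℝ)) else 0
  let Dep : EvIdx n → Finset (EvIdx n) := fun e =>
    (bad.filter fun x => Touch (asg e) (asg (Sum.inl x))).disjSum
      (conf.filter fun y => Touch (asg e) (asg (Sum.inr y)))
  have hp0 : ∀ i, 0 ≤ p i := by
    intro i
    cases i with
    | inl x =>
      simp only [p]
      split_ifs <;> positivity
    | inr y =>
      simp only [p]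
      split_ifs <;> positivity
  have hp1 : ∀ i, p i ≤ 1 / 4 := by
    intro i
    cases i with
    | inl x =>
      simp only [p]
      split_ifs
      · exact one_div_le_one_div_of_le (by norm_num) hnR
      · norm_num
    | inr y =>
      simp only [p]
      split_ifs
      · exact one_div_le_one_div_of_le (by norm_num) (by linarith)
      · norm_num
  -- counting the dependent events
  have hcb : ∀ e : EvIdx n, (bad.filter fun x => Touch (asg e) (asg (Sum.inl x))).card ≤ 4 * b := by
    intro e
    have hsub : (bad.filter fun x => Touch (asg e) (asg (Sum.inl x))) ⊆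
        (asg e).biUnion fun u => (bad.filter fun q => q.1 = u.1) ∪ (bad.filter fun q => q.2 = u.2) := by
      intro x hx
      obtain ⟨hx1, u, hu, v, hv, huv⟩ := mem_filter.mp hx
      simp only [asg, mem_singleton] at hv
      subst hv
      refine mem_biUnion.mpr ⟨u, hu, ?_⟩
      rcases huv with h | h
      · exact mem_union_left _ (mem_filter.mpr ⟨hx1, h⟩)
      · exact mem_union_right _ (mem_filter.mpr ⟨hx1, h⟩)
    calc _ ≤ _ := card_le_card hsub
      _ ≤ ∑ u ∈ asg e, ((bad.filter fun q => q.1 = u.1) ∪ (bad.filter fun q => q.2 = u.2)).card :=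
          card_biUnion_le
      _ ≤ ∑ _u ∈ asg e, (2 * b) := by
          refine sum_le_sum fun u _ => ?_
          have := hb1 u.1
          have := hb2 u.2
          have := card_union_le (bad.filter fun q => q.1 = u.1) (bad.filter fun q => q.2 = u.2)
          omega
      _ = (asg e).card * (2 * b) := by simp
      _ ≤ 2 * (2 * b) := Nat.mul_le_mul_right _ (asg_card_le e)
      _ = 4 * b := by ring
  have hcT : ∀ e : EvIdx n, (conf.filter fun y => Touch (asg e) (asg (Sum.inr y))).card ≤ 8 * T := by
    intro e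
    have hsub : (conf.filter fun y => Touch (asg e) (asg (Sum.inr y))) ⊆
        (asg e).biUnion fun u => (conf.filter fun x => x.1.1 = u.1) ∪ (conf.filter fun x => x.2.1 = u.1) ∪
          (conf.filter fun x => x.1.2 = u.2) ∪ (conf.filter fun x => x.2.2 = u.2) := by
      intro x hx
      obtain ⟨hx1, u, hu, v, hv, huv⟩ := mem_filter.mp hx
      simp only [asg, mem_insert, mem_singleton] at hv
      refine mem_biUnion.mpr ⟨u, hu, ?_⟩
      simp only [mem_union, mem_filter]
      rcases hv with rfl | rfl <;> rcases huv with h | h <;> tauto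
    calc _ ≤ _ := card_le_card hsub
      _ ≤ ∑ u ∈ asg e, ((conf.filter fun x => x.1.1 = u.1) ∪ (conf.filter fun x => x.2.1 = u.1) ∪
          (conf.filter fun x => x.1.2 = u.2) ∪ (conf.filter fun x => x.2.2 = u.2)).card :=
          card_biUnion_le
      _ ≤ ∑ _u ∈ asg e, (4 * T) := by
          refine sum_le_sum fun u _ => ?_
          have h1 := hT1 u.1
          have h2 := hT2 u.1
          have h3 := hT3 u.2
          have h4 := hT4 u.2
          have h5 := card_union_le ((conf.filter fun x => x.1.1 = u.1) ∪ (conf.filter fun x => x.2.1 = u.1) ∪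
            (conf.filter fun x => x.1.2 = u.2)) (conf.filter fun x => x.2.2 = u.2)
          have h6 := card_union_le ((conf.filter fun x => x.1.1 = u.1) ∪ (conf.filter fun x => x.2.1 = u.1))
            (conf.filter fun x => x.1.2 = u.2)
          have h7 := card_union_le (conf.filter fun x => x.1.1 = u.1) (conf.filter fun x => x.2.1 = u.1)
          omega
      _ = (asg e).card * (4 * T) := by simp
      _ ≤ 2 * (4 * T) := Nat.mul_le_mul_right _ (asg_card_le e)
      _ = 8 * T := by ring
  have hD : ∀ i, ∑ l ∈ Dep i, p l ≤ 1 / 4 := by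
    intro i
    simp only [Dep]
    rw [Finset.sum_disjSum]
    have h1 : ∑ x ∈ bad.filter (fun x => Touch (asg i) (asg (Sum.inl x))), p (Sum.inl x)
        = ((bad.filter fun x => Touch (asg i) (asg (Sum.inl x))).card : ℝ) * (1 / (n : ℝ)) := by
      rw [Finset.sum_congr rfl (g := fun _ => 1 / (n : ℝ))]
      · simp
      · intro x hx
        simp only [p, if_pos (mem_filter.mp hx).1]
    have h2 : ∑ x ∈ conf.filter (fun y => Touch (asg i) (asg (Sum.inr y))), p (Sum.inr x)
        = ((conf.filter fun y => Touch (asg i) (asg (Sum.inr y))).card : ℝ)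
            * (1 / ((n : ℝ) * ((n - 1 : ℕ) : ℝ))) := by
      rw [Finset.sum_congr rfl (g := fun _ => 1 / ((n : ℝ) * ((n - 1 : ℕ) : ℝ)))]
      · simp
      · intro x hx
        simp only [p, if_pos (mem_filter.mp hx).1]
    rw [h1, h2]
    have h3 : ((bad.filter fun x => Touch (asg i) (asg (Sum.inl x))).card : ℝ) ≤ 4 * b := by
      exact_mod_cast hcb i
    have h4 : ((conf.filter fun y => Touch (asg i) (asg (Sum.inr y))).card : ℝ) ≤ 8 * T := by
      exact_mod_cast hcT i
    have h5 : (32 : ℝ) * b ≤ n := by exact_mod_cast hbn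
    have h6 : (64 : ℝ) * T ≤ (n : ℝ) * ((n - 1 : ℕ) : ℝ) := by exact_mod_cast hTn
    have hnpos : (0 : ℝ) < n := by linarith
    have hnnpos : (0 : ℝ) < (n : ℝ) * ((n - 1 : ℕ) : ℝ) := by linarith
    have h7 : ((bad.filter fun x => Touch (asg i) (asg (Sum.inl x))).card : ℝ) * (1 / (n : ℝ)) ≤ 1 / 8 := by
      rw [mul_one_div, div_le_iff₀ hnpos]
      linarith
    have h8 : ((conf.filter fun y => Touch (asg i) (asg (Sum.inr y))).card : ℝ)
        * (1 / ((n : ℝ) * ((n - 1 : ℕ) : ℝ))) ≤ 1 / 8 := by
      rw [mul_one_div, div_le_iff₀ hnnpos]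
      linarith
    linarith
  -- closure under swaps
  have hclosed : ∀ (i : EvIdx n) (S : Finset (EvIdx n)), Disjoint S (Dep i) → ∀ u ∈ asg i,
      SwapClosed (avoidL E S) u.1 u.2 := by
    intro i S hS u hu σ hσ hσu c'
    simp only [avoidL, mem_filter, mem_univ, true_and] at hσ ⊢
    intro j hj hmem
    have hjdep : j ∉ Dep i := fun h => (disjoint_left.mp hS) hj h
    cases j with
    | inl x =>
      simp only [E] at hmem hσ
      by_cases hx : x ∈ bad
      · rw [if_pos hx] at hmem
        have hnt : ¬ Touch (asg i) (asg (Sum.inl x)) := by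
          intro ht
          apply hjdep
          simp only [Dep, inl_mem_disjSum, mem_filter]
          exact ⟨hx, ht⟩
        have hA : ∀ q ∈ ({x} : Finset (Fin n × Fin n)), q.1 ≠ u.1 ∧ q.2 ≠ u.2 := by
          intro q hq
          constructor
          · intro h
            exact hnt ⟨u, hu, q, by simpa [asg] using hq, Or.inl h⟩
          · intro h
            exact hnt ⟨u, hu, q, by simpa [asg] using hq, Or.inr h⟩
        have := evt_swap_imp _ u.1 u.2 c' σ hσu hA hmem
        have h2 := hσ (Sum.inl x) hj
        simp only [E, if_pos hx] at h2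
        exact h2 this
      · rw [if_neg hx] at hmem
        simp at hmem
    | inr y =>
      simp only [E] at hmem hσ
      by_cases hy : y ∈ conf
      · rw [if_pos hy] at hmem
        have hnt : ¬ Touch (asg i) (asg (Sum.inr y)) := by
          intro ht
          apply hjdep
          simp only [Dep, inr_mem_disjSum, mem_filter]
          exact ⟨hy, ht⟩
        have hA : ∀ q ∈ ({y.1, y.2} : Finset (Fin n × Fin n)), q.1 ≠ u.1 ∧ q.2 ≠ u.2 := by
          intro q hq
          constructor
          · intro h
            exact hnt ⟨u, hu, q, by simpa [asg] using hq, Or.inl h⟩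
          · intro h
            exact hnt ⟨u, hu, q, by simpa [asg] using hq, Or.inr h⟩
        have := evt_swap_imp _ u.1 u.2 c' σ hσu hA hmem
        have h2 := hσ (Sum.inr y) hj
        simp only [E, if_pos hy] at h2
        exact h2 this
      · rw [if_neg hy] at hmem
        simp at hmem
  have hindep : ∀ i (S : Finset (EvIdx n)), Disjoint S (Dep i) →
      ((E i ∩ avoidL E S).card : ℝ) ≤ p i * (avoidL E S).card := by
    intro i S hS
    cases i with
    | inl x =>
      simp only [E, p]
      by_cases hx : x ∈ bad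
      · rw [if_pos hx, if_pos hx]
        have h1 := count_one (avoidL E S) x.1 x.2 (hclosed (Sum.inl x) S hS x (by simp [asg]))
        have h2 : evt {x} ∩ avoidL E S = (avoidL E S).filter fun σ => σ x.1 = x.2 := by
          ext σ
          simp only [evt, mem_inter, mem_filter, mem_univ, true_and, mem_singleton, forall_eq]
          tauto
        rw [h2]
        have hnpos : (0 : ℝ) < n := by linarith
        have h3 : (n : ℝ) * (((avoidL E S).filter fun σ => σ x.1 = x.2).card : ℝ) ≤ (avoidL E S).card := by
          exact_mod_cast h1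
        rw [one_div, inv_mul_eq_div, le_div_iff₀ hnpos]
        linarith
      · rw [if_neg hx, if_neg hx]
        simp
    | inr y =>
      simp only [E, p]
      by_cases hy : y ∈ conf
      · rw [if_pos hy, if_pos hy]
        have hc := hconf y hy
        have h1 := count_two (avoidL E S) y.1.1 y.1.2 y.2.1 y.2.2 hc.1 hc.2
          (hclosed (Sum.inr y) S hS y.1 (by simp [asg]))
          (hclosed (Sum.inr y) S hS y.2 (by simp [asg]))
        have h2 : evt {y.1, y.2} ∩ avoidL E S
            = (avoidL E S).filter fun σ => σ y.1.1 = y.1.2 ∧ σ y.2.1 = y.2.2 := by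
          ext σ
          simp only [evt, mem_inter, mem_filter, mem_univ, true_and, mem_insert, mem_singleton,
            forall_eq_or_imp, forall_eq]
          tauto
        rw [h2]
        have hnnpos : (0 : ℝ) < (n : ℝ) * ((n - 1 : ℕ) : ℝ) := by linarith
        have h3 : (n : ℝ) * ((n - 1 : ℕ) : ℝ) *
            (((avoidL E S).filter fun σ => σ y.1.1 = y.1.2 ∧ σ y.2.1 = y.2.2).card : ℝ)
            ≤ (avoidL E S).card := by
          exact_mod_cast h1
        rw [one_div, inv_mul_eq_div, le_div_iff₀ hnnpos]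
        linarith
      · rw [if_neg hy, if_neg hy]
        simp
  obtain ⟨hpos, -⟩ := lll_coreL E Dep p hp0 hp1 hD hindep univ
  obtain ⟨σ, hσ⟩ := card_pos.mp hpos
  simp only [avoidL, mem_filter, mem_univ, true_and, forall_const] at hσ
  refine ⟨σ, ?_, ?_⟩
  · intro q hq hc
    have := hσ (Sum.inl q)
    simp only [E, if_pos hq] at this
    apply this
    simp only [evt, mem_filter, mem_univ, true_and, mem_singleton, forall_eq]
    exact hc
  · intro x hx hc
    have := hσ (Sum.inr x)
    simp only [E, if_pos hx] at this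
    apply this
    simp only [evt, mem_filter, mem_univ, true_and, mem_insert, mem_singleton, forall_eq_or_imp, forall_eq]
    exact hc

end Vale.Agent.Lib.P060
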