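import Vale.Agent.Lib.P060.Main

/-!
Graphs without independent triples: connected matchings plus seagull packings.
-/

set_option linter.unusedSectionVars false

namespace Vale.Agent.Lib.P060

open Finset

variable {V : Type*} [Fintype V] [DecidableEq V] {G : SimpleGraph V} [DecidableRel G.Adj]

/-- A family of branch sets. -/
def GoodFam (G : SimpleGraph V) (F : Finset (Finset V)) : Prop :=
  (∀ B ∈ F, (G.induce (B : Set V)).Connected) ∧
  (∀ B ∈ F, ∀ C ∈ F, B ≠ C → Disjoint B C ∧ ∃ x ∈ B, ∃ y ∈ C, G.Adj x y)

theorem HasCliqueMinor.mono {G : SimpleGraph V} {t t' : ℕ} (h : HasCliqueMinor G t) (htt : t' ≤ t) :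
    HasCliqueMinor G t' := by
  obtain ⟨B, h1, h2, h3, h4⟩ := h
  refine ⟨fun i => B (Fin.castLE htt i), fun i => h1 _, fun i j hij => h2 _ _ ?_, fun i => h3 _,
    fun i j hij => h4 _ _ ?_⟩
  · exact fun h => hij (Fin.castLE_injective htt h)
  · exact fun h => hij (Fin.castLE_injective htt h)

theorem minor_of_good {F : Finset (Finset V)} (h : GoodFam G F) : HasCliqueMinor G F.card := by
  let e := F.equivFin.symm
  refine ⟨fun i => ((e i : Finset V) : Set V), ?_, ?_, ?_, ?_⟩
  · intro i
    have := (h.1 _ (e i).2).nonempty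
    obtain ⟨x⟩ := this
    exact ⟨x.1, x.2⟩
  · intro i j hij
    have hne : (e i : Finset V) ≠ (e j : Finset V) := fun hc => hij (e.injective (Subtype.ext hc))
    exact Finset.disjoint_coe.mpr (h.2 _ (e i).2 _ (e j).2 hne).1
  · intro i
    exact h.1 _ (e i).2
  · intro i j hij
    have hne : (e i : Finset V) ≠ (e j : Finset V) := fun hc => hij (e.injective (Subtype.ext hc))
    obtain ⟨x, hx, y, hy, hxy⟩ := (h.2 _ (e i).2 _ (e j).2 hne).2
    exact ⟨x, hx, y, hy, hxy⟩

/-- No independent triple. -/
def NoIndepTriple (G : SimpleGraph V) : Prop :=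
  ∀ a b c : V, a ≠ b → a ≠ c → b ≠ c → G.Adj a b ∨ G.Adj a c ∨ G.Adj b c

theorem connected_triple {a b c : V} (hab : G.Adj a b) (hbc : G.Adj b c) :
    (G.induce ((({a, b, c} : Finset V)) : Set V)).Connected := by
  have h := (SimpleGraph.Walk.cons hab (SimpleGraph.Walk.cons hbc SimpleGraph.Walk.nil)).connected_induce_support
  have hset : (((({a, b, c} : Finset V)) : Set V)) =
      {v | v ∈ (SimpleGraph.Walk.cons hab (SimpleGraph.Walk.cons hbc SimpleGraph.Walk.nil)).support} := by
    ext x
    simp
  rw [hset]
  exact h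

/-- Seagull packing: extends a family by disjoint seagulls until the rest is two anticomplete
cliques. -/
theorem extend_fam (hα : NoIndepTriple G) (R : Finset V) :
    ∀ F : Finset (Finset V), GoodFam G F → (∀ B ∈ F, Disjoint B R) →
      ∃ (F' : Finset (Finset V)) (A C : Finset V), GoodFam G F' ∧
        3 * F'.card + A.card + C.card = 3 * F.card + R.card ∧ A ⊆ R ∧ C ⊆ R ∧ Disjoint A C ∧
        (∀ x ∈ A, ∀ y ∈ A, x ≠ y → G.Adj x y) ∧ (∀ x ∈ C, ∀ y ∈ C, x ≠ y → G.Adj x y) ∧
        (∀ x ∈ A, ∀ y ∈ C, ¬ G.Adj x y) := by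
  induction R using Finset.strongInduction with
  | H R ih =>
    intro F hF hdis
    by_cases hsg : ∃ a ∈ R, ∃ b ∈ R, ∃ c ∈ R, G.Adj a b ∧ G.Adj b c ∧ a ≠ c ∧ ¬ G.Adj a c
    · obtain ⟨a, ha, b, hb, c, hc, hab, hbc, hac, hnac⟩ := hsg
      set S : Finset V := {a, b, c} with hS
      have hSR : S ⊆ R := by
        intro x hx
        simp only [hS, mem_insert, mem_singleton] at hx
        rcases hx with rfl | rfl | rfl <;> assumption
      have hSne : S.Nonempty := ⟨a, by simp [hS]⟩
      have hSF : S ∉ F := by
        intro hc'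
        have := hdis S hc'
        have h2 : Disjoint S S := this.mono_right hSR
        rw [disjoint_self] at h2
        exact hSne.ne_empty h2
      have hss : R \ S ⊂ R := by
        refine ⟨sdiff_subset, fun h => ?_⟩
        have h1 := h ha
        simp [hS] at h1
      -- new element joined to all old ones
      have hjoin : ∀ B ∈ F, Disjoint S B ∧ ∃ x ∈ S, ∃ y ∈ B, G.Adj x y := by
        intro B hB
        have hdB : Disjoint S B := ((hdis B hB).mono_right hSR).symm
        refine ⟨hdB, ?_⟩
        obtain ⟨⟨v, hv⟩⟩ := (hF.1 B hB).nonempty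
        have hvB : v ∈ B := hv
        have hva : v ≠ a := fun h => (disjoint_left.mp hdB) (by simp [hS]) (h ▸ hvB)
        have hvc : v ≠ c := fun h => (disjoint_left.mp hdB) (by simp [hS]) (h ▸ hvB)
        rcases hα v a c hva hvc hac with h | h | h
        · exact ⟨a, by simp [hS], v, hvB, h.symm⟩
        · exact ⟨c, by simp [hS], v, hvB, h.symm⟩
        · exact absurd h hnac
      have hF2 : GoodFam G (insert S F) := by
        constructor
        · intro B hB
          rcases mem_insert.mp hB with rfl | hB
          · exact connected_triple hab hbc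
          · exact hF.1 B hB
        · intro B hB C hC hBC
          rcases mem_insert.mp hB with rfl | hB <;> rcases mem_insert.mp hC with rfl | hC
          · exact absurd rfl hBC
          · exact hjoin C hC
          · obtain ⟨h1, x, hx, y, hy, hxy⟩ := hjoin B hB
            exact ⟨h1.symm, y, hy, x, hx, hxy.symm⟩
          · exact hF.2 B hB C hC hBC
      have hdis2 : ∀ B ∈ insert S F, Disjoint B (R \ S) := by
        intro B hB
        rcases mem_insert.mp hB with rfl | hB
        · exact disjoint_sdiff
        · exact (hdis B hB).mono_right sdiff_subset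
      obtain ⟨F', A, C, h1, h2, h3, h4, h5, h6, h7, h8⟩ := ih _ hss (insert S F) hF2 hdis2
      refine ⟨F', A, C, h1, ?_, h3.trans sdiff_subset, h4.trans sdiff_subset, h5, h6, h7, h8⟩
      have hc1 : (insert S F).card = F.card + 1 := card_insert_of_notMem hSF
      have hSc : S.card = 3 := by
        rw [hS]
        have hbne : a ≠ b := G.ne_of_adj hab
        have hcne : b ≠ c := G.ne_of_adj hbc
        rw [card_insert_of_notMem (by simp [hbne, hac]), card_insert_of_notMem (by simp [hcne])]
        simp
      have hc2 : (R \ S).card = R.card - 3 := by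
        rw [card_sdiff_of_subset hSR, hSc]
      have hc3 : 3 ≤ R.card := by
        rw [← hSc]; exact card_le_card hSR
      omega
    · push Not at hsg
      -- `R` has no induced path on three vertices
      have hP3 : ∀ a ∈ R, ∀ b ∈ R, ∀ c ∈ R, G.Adj a b → G.Adj b c → a ≠ c → G.Adj a c := by
        intro a ha b hb c hc hab hbc hac
        by_contra hn
        exact hn (hsg a ha b hb c hc hab hbc hac)
      rcases R.eq_empty_or_nonempty with rfl | ⟨a, ha⟩
      · refine ⟨F, ∅, ∅, hF, by simp, by simp, by simp, by simp, by simp, by simp, by simp⟩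
      · set A := R.filter fun x => x = a ∨ G.Adj a x with hA
        set C := R.filter fun x => ¬ (x = a ∨ G.Adj a x) with hC
        refine ⟨F, A, C, hF, ?_, filter_subset _ _, filter_subset _ _, ?_, ?_, ?_, ?_⟩
        · have : A.card + C.card = R.card := by
            rw [hA, hC]
            exact card_filter_add_card_filter_not _
          omega
        · exact disjoint_filter_filter_not _ _ _
        · intro x hx y hy hxy
          obtain ⟨hxR, hx'⟩ := mem_filter.mp hx
          obtain ⟨hyR, hy'⟩ := mem_filter.mp hy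
          rcases hx' with rfl | hx' <;> rcases hy' with rfl | hy'
          · exact absurd rfl hxy
          · exact hy'
          · exact hx'.symm
          · exact hP3 x hxR a ha y hyR hx'.symm hy' hxy
        · intro x hx y hy hxy
          obtain ⟨hxR, hx'⟩ := mem_filter.mp hx
          obtain ⟨hyR, hy'⟩ := mem_filter.mp hy
          push Not at hx' hy'
          rcases hα a x y hx'.1.symm hy'.1.symm hxy with h | h | h
          · exact absurd h hx'.2
          · exact absurd h hy'.2
          · exact h
        · intro x hx y hy hxy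
          obtain ⟨hxR, hx'⟩ := mem_filter.mp hx
          obtain ⟨hyR, hy'⟩ := mem_filter.mp hy
          push Not at hy'
          rcases hx' with rfl | hx'
          · exact hy'.2 hxy
          · have hay : a ≠ y := hy'.1.symm
            exact hy'.2 (hP3 a ha x hxR y hyR hx' hxy hay)

/-- A maximum clique exists. -/
theorem exists_max_clique (G : SimpleGraph V) [DecidableRel G.Adj] :
    ∃ I : Finset V, (∀ x ∈ I, ∀ y ∈ I, x ≠ y → G.Adj x y) ∧
      ∀ J : Finset V, (∀ x ∈ J, ∀ y ∈ J, x ≠ y → G.Adj x y) → J.card ≤ I.card := by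
  classical
  let S := (univ : Finset (Finset V)).filter fun J => ∀ x ∈ J, ∀ y ∈ J, x ≠ y → G.Adj x y
  have hS : S.Nonempty := ⟨∅, by simp [S]⟩
  obtain ⟨I, hI, hmax⟩ := Finset.exists_max_image S Finset.card hS
  refine ⟨I, (mem_filter.mp hI).2, fun J hJ => hmax J (mem_filter.mpr ⟨mem_univ _, hJ⟩)⟩

/-- The bound `h ≥ (m + ω)/3`. -/
theorem clique_bound (hα : NoIndepTriple G) (I : Finset V)
    (hI : ∀ x ∈ I, ∀ y ∈ I, x ≠ y → G.Adj x y)
    (hmax : ∀ J : Finset V, (∀ x ∈ J, ∀ y ∈ J, x ≠ y → G.Adj x y) → J.card ≤ I.card) :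
    ∃ F : Finset (Finset V), GoodFam G F ∧ Fintype.card V + I.card ≤ 3 * F.card := by
  classical
  set F₀ : Finset (Finset V) := I.image fun w => ({w} : Finset V) with hF₀
  have hF₀c : F₀.card = I.card := card_image_of_injective _ (fun a b h => by simpa using h)
  have hgood : GoodFam G F₀ := by
    constructor
    · intro B hB
      obtain ⟨w, -, rfl⟩ := mem_image.mp hB
      rw [coe_singleton]
      exact connected_singleton w
    · intro B hB C hC hBC
      obtain ⟨w, hw, rfl⟩ := mem_image.mp hB
      obtain ⟨w', hw', rfl⟩ := mem_image.mp hC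
      have hne : w ≠ w' := fun h => hBC (by rw [h])
      exact ⟨by simpa using hne, w, by simp, w', by simp, hI w hw w' hw' hne⟩
  have hdis : ∀ B ∈ F₀, Disjoint B (univ \ I) := by
    intro B hB
    obtain ⟨w, hw, rfl⟩ := mem_image.mp hB
    simpa using hw
  obtain ⟨F', A, C, h1, h2, h3, h4, h5, h6, h7, h8⟩ := extend_fam hα (univ \ I) F₀ hgood hdis
  refine ⟨F', h1, ?_⟩
  -- each vertex of `I` is complete to `A` or to `C`
  set IA := I.filter fun w => ∀ x ∈ A, G.Adj w x with hIA
  set IC := I.filter fun w => ¬ ∀ x ∈ A, G.Adj w x with hIC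
  have hcompl : ∀ w ∈ IC, ∀ y ∈ C, G.Adj w y := by
    intro w hw y hy
    obtain ⟨hwI, hw'⟩ := mem_filter.mp hw
    push Not at hw'
    obtain ⟨x, hx, hwx⟩ := hw'
    have hxI : x ∉ I := by simpa using h3 hx
    have hyI : y ∉ I := by simpa using h4 hy
    have h9 : w ≠ x := fun h => hxI (h ▸ hwI)
    have h10 : w ≠ y := fun h => hyI (h ▸ hwI)
    have h11 : x ≠ y := fun h => (disjoint_left.mp h5) hx (h ▸ hy)
    rcases hα w x y h9 h10 h11 with h | h | h
    · exact absurd h hwx
    · exact h
    · exact absurd h (h8 x hx y hy)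
  have hA1 : (IA ∪ A).card ≤ I.card := by
    refine hmax _ ?_
    intro x hx y hy hxy
    rcases mem_union.mp hx with hx | hx <;> rcases mem_union.mp hy with hy | hy
    · exact hI x (mem_filter.mp hx).1 y (mem_filter.mp hy).1 hxy
    · exact (mem_filter.mp hx).2 y hy
    · exact ((mem_filter.mp hy).2 x hx).symm
    · exact h6 x hx y hy hxy
  have hC1 : (IC ∪ C).card ≤ I.card := by
    refine hmax _ ?_
    intro x hx y hy hxy
    rcases mem_union.mp hx with hx | hx <;> rcases mem_union.mp hy with hy | hy
    · exact hI x (mem_filter.mp hx).1 y (mem_filter.mp hy).1 hxy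
    · exact hcompl x hx y hy
    · exact (hcompl y hy x hx).symm
    · exact h7 x hx y hy hxy
  have hA2 : (IA ∪ A).card = IA.card + A.card := by
    apply card_union_of_disjoint
    rw [disjoint_left]
    intro x hx hx'
    have := h3 hx'
    simp only [mem_sdiff, mem_univ, true_and] at this
    exact this (mem_filter.mp hx).1
  have hC2 : (IC ∪ C).card = IC.card + C.card := by
    apply card_union_of_disjoint
    rw [disjoint_left]
    intro x hx hx'
    have := h4 hx'
    simp only [mem_sdiff, mem_univ, true_and] at this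
    exact this (mem_filter.mp hx).1
  have hsplit : IA.card + IC.card = I.card := card_filter_add_card_filter_not _
  have hR : (univ \ I).card = Fintype.card V - I.card := by
    rw [card_sdiff_of_subset (subset_univ _), card_univ]
  have hIV : I.card ≤ Fintype.card V := card_le_univ I
  omega

/-- The bound from a family of pairs. -/
theorem pairs_bound (hα : NoIndepTriple G) (I : Finset V)
    (hmax : ∀ J : Finset V, (∀ x ∈ J, ∀ y ∈ J, x ≠ y → G.Adj x y) → J.card ≤ I.card)
    (F₀ : Finset (Finset V)) (hgood : GoodFam G F₀) (hsize : ∀ B ∈ F₀, B.card ≤ 2) :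
    ∃ F : Finset (Finset V), GoodFam G F ∧
      Fintype.card V + F₀.card ≤ 3 * F.card + 2 * I.card := by
  classical
  set U : Finset V := F₀.biUnion id with hU
  have hdis : ∀ B ∈ F₀, Disjoint B (univ \ U) := by
    intro B hB
    have hBU : B ⊆ U := subset_biUnion_of_mem id hB
    exact (disjoint_sdiff (s := U) (t := univ)).mono_left hBU
  obtain ⟨F', A, C, h1, h2, h3, h4, h5, h6, h7, h8⟩ := extend_fam hα (univ \ U) F₀ hgood hdis
  refine ⟨F', h1, ?_⟩
  have hA := hmax A h6
  have hC := hmax C h7
  have hUc : U.card ≤ F₀.card * 2 := card_biUnion_le_card_mul _ _ _ hsize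
  have hR : (univ \ U).card = Fintype.card V - U.card := by
    rw [card_sdiff_of_subset (subset_univ _), card_univ]
  omega

end Vale.Agent.Lib.P060
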