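import Vale.Agent.Lib.P060.Seagull

/-!
Linear gain over `m/3` for graphs without independent triples with a large subset in which all
vertices have few non-neighbours; clique blow-ups of graphs with few non-neighbours.
-/

set_option linter.unusedSectionVars false

namespace Vale.Agent.Lib.P060

open Finset

variable {V : Type*} [Fintype V] [DecidableEq V] {G : SimpleGraph V} [DecidableRel G.Adj]

/-- The family made from pairs and single vertices. -/
theorem fam_of_pairs_singles {ι κ : Type*} [Fintype ι] [DecidableEq ι] [Fintype κ] [DecidableEq κ]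
    (X Y : ι → V) (Z : κ → V)
    (hX : Function.Injective X) (hY : Function.Injective Y) (hZ : Function.Injective Z)
    (hXY : ∀ i j, X i ≠ Y j) (hXZ : ∀ i j, X i ≠ Z j) (hYZ : ∀ i j, Y i ≠ Z j)
    (h1 : ∀ i, G.Adj (X i) (Y i))
    (h2 : ∀ i k, i ≠ k → G.Adj (X i) (X k) ∨ G.Adj (X i) (Y k) ∨ G.Adj (Y i) (X k) ∨
        G.Adj (Y i) (Y k))
    (h3 : ∀ k i, G.Adj (Z k) (X i) ∨ G.Adj (Z k) (Y i))
    (h4 : ∀ k l, k ≠ l → G.Adj (Z k) (Z l)) :
    ∃ F : Finset (Finset V), GoodFam G F ∧ F.card = Fintype.card ι + Fintype.card κ ∧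
      ∀ B ∈ F, B.card ≤ 2 := by
  classical
  let P : ι → Finset V := fun i => {X i, Y i}
  let S : κ → Finset V := fun k => {Z k}
  have hPdis : ∀ i j, i ≠ j → Disjoint (P i) (P j) := by
    intro i j hij
    rw [disjoint_left]
    intro x hx hx'
    simp only [P, mem_insert, mem_singleton] at hx hx'
    rcases hx with rfl | rfl <;> rcases hx' with h | h
    · exact hij (hX h)
    · exact hXY _ _ h
    · exact hXY _ _ h.symm
    · exact hij (hY h)
  have hSdis : ∀ k l, k ≠ l → Disjoint (S k) (S l) := by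
    intro k l hkl
    simp only [S, disjoint_singleton]
    exact fun h => hkl (hZ h)
  have hPS : ∀ i k, Disjoint (P i) (S k) := by
    intro i k
    simp only [P, S, disjoint_singleton_right, mem_insert, mem_singleton, not_or]
    exact ⟨(hXZ _ _).symm, (hYZ _ _).symm⟩
  have hPne : ∀ i, (P i).Nonempty := fun i => ⟨X i, by simp [P]⟩
  have hSne : ∀ k, (S k).Nonempty := fun k => ⟨Z k, by simp [S]⟩
  have hPinj : Function.Injective P := by
    intro i j h
    by_contra hij
    have := hPdis i j hij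
    rw [h, disjoint_self] at this
    exact (hPne j).ne_empty this
  have hSinj : Function.Injective S := by
    intro i j h
    by_contra hij
    have := hSdis i j hij
    rw [h, disjoint_self] at this
    exact (hSne j).ne_empty this
  refine ⟨univ.image P ∪ univ.image S, ⟨?_, ?_⟩, ?_, ?_⟩
  · intro B hB
    rcases mem_union.mp hB with hB | hB
    · obtain ⟨i, -, rfl⟩ := mem_image.mp hB
      have hc : ((P i : Finset V) : Set V) = {X i, Y i} := by
        simp [P]
      rw [hc]
      exact SimpleGraph.induce_pair_connected_of_adj (h1 i)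
    · obtain ⟨k, -, rfl⟩ := mem_image.mp hB
      have hc : ((S k : Finset V) : Set V) = {Z k} := by
        simp [S]
      rw [hc]
      exact connected_singleton _
  · intro B hB C hC hBC
    rcases mem_union.mp hB with hB | hB <;> rcases mem_union.mp hC with hC | hC
    · obtain ⟨i, -, rfl⟩ := mem_image.mp hB
      obtain ⟨j, -, rfl⟩ := mem_image.mp hC
      have hij : i ≠ j := fun h => hBC (by rw [h])
      refine ⟨hPdis i j hij, ?_⟩
      rcases h2 i j hij with h | h | h | h
      · exact ⟨X i, by simp [P], X j, by simp [P], h⟩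
      · exact ⟨X i, by simp [P], Y j, by simp [P], h⟩
      · exact ⟨Y i, by simp [P], X j, by simp [P], h⟩
      · exact ⟨Y i, by simp [P], Y j, by simp [P], h⟩
    · obtain ⟨i, -, rfl⟩ := mem_image.mp hB
      obtain ⟨k, -, rfl⟩ := mem_image.mp hC
      refine ⟨hPS i k, ?_⟩
      rcases h3 k i with h | h
      · exact ⟨X i, by simp [P], Z k, by simp [S], h.symm⟩
      · exact ⟨Y i, by simp [P], Z k, by simp [S], h.symm⟩
    · obtain ⟨k, -, rfl⟩ := mem_image.mp hB
      obtain ⟨i, -, rfl⟩ := mem_image.mp hC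
      refine ⟨(hPS i k).symm, ?_⟩
      rcases h3 k i with h | h
      · exact ⟨Z k, by simp [S], X i, by simp [P], h⟩
      · exact ⟨Z k, by simp [S], Y i, by simp [P], h⟩
    · obtain ⟨k, -, rfl⟩ := mem_image.mp hB
      obtain ⟨l, -, rfl⟩ := mem_image.mp hC
      have hkl : k ≠ l := fun h => hBC (by rw [h])
      exact ⟨hSdis k l hkl, Z k, by simp [S], Z l, by simp [S], h4 k l hkl⟩
  · rw [card_union_of_disjoint, card_image_of_injective _ hPinj, card_image_of_injective _ hSinj,
      card_univ, card_univ]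
    rw [disjoint_left]
    intro B hB hB'
    obtain ⟨i, -, rfl⟩ := mem_image.mp hB
    obtain ⟨k, -, hk⟩ := mem_image.mp hB'
    have := hPS i k
    rw [← hk, disjoint_self] at this
    exact (hSne k).ne_empty this
  · intro B hB
    rcases mem_union.mp hB with hB | hB
    · obtain ⟨i, -, rfl⟩ := mem_image.mp hB
      exact card_le_two
    · obtain ⟨k, -, rfl⟩ := mem_image.mp hB
      simp [S]

/-- A connected matching on a subset with few non-neighbours. -/
theorem fam_of_subset (U : Finset V) (d : ℕ)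
    (hU : ∀ u ∈ U, (U.filter fun w => w ≠ u ∧ ¬ G.Adj u w).card ≤ d)
    (hnum : 2 ^ 29 * d ^ 4 ≤ U.card ^ 3) :
    ∃ F : Finset (Finset V), GoodFam G F ∧ F.card = U.card / 2 ∧ ∀ B ∈ F, B.card ≤ 2 := by
  classical
  set n := U.card / 2 with hn
  -- the induced graph
  let G' : SimpleGraph {x // x ∈ U} := G.comap Subtype.val
  have hd' : ∀ v, (NN G' v).card ≤ d := by
    intro v
    refine le_trans ?_ (hU v.1 v.2)
    refine Finset.card_le_card_of_injOn Subtype.val ?_ Subtype.val_injective.injOn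
    intro w hw
    have hw' := (mem_NN G').mp (mem_coe.mp hw)
    simp only [coe_filter, Set.mem_ofPred_eq]
    refine ⟨w.2, fun h => hw'.1 (Subtype.ext h), ?_⟩
    exact hw'.2
  have hcardU : Fintype.card {x // x ∈ U} = U.card := Fintype.card_coe U
  have hdn : (64 * d) ^ 4 ≤ n ^ 3 := by
    rcases Nat.eq_zero_or_pos n with hn0 | hnpos
    · have hUc : U.card ≤ 1 := by omega
      have h1 : 2 ^ 29 * d ^ 4 ≤ 1 := by
        refine hnum.trans ?_
        calc U.card ^ 3 ≤ 1 ^ 3 := Nat.pow_le_pow_left hUc 3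
          _ = 1 := by norm_num
      have hd0 : d = 0 := by
        by_contra hc
        have : 1 ≤ d ^ 4 := Nat.one_le_pow _ _ (Nat.pos_of_ne_zero hc)
        omega
      simp [hd0]
    · have h1 : 2 ^ 29 * d ^ 4 ≤ (3 * n) ^ 3 := by
        calc _ ≤ U.card ^ 3 := hnum
          _ ≤ (3 * n) ^ 3 := Nat.pow_le_pow_left (by omega) 3
      have h2 : (3 * n) ^ 3 = 27 * n ^ 3 := by ring
      rw [h2] at h1
      have h3 : (64 * d) ^ 4 = 2 ^ 24 * d ^ 4 := by ring
      rw [h3]
      omega
  obtain ⟨T, -, hT⟩ := Finset.exists_subset_card_eq (s := (univ : Finset {x // x ∈ U}))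
    (n := 2 * n) (by rw [card_univ, hcardU]; omega)
  obtain ⟨P, Q, hP, hQ, hPQ, -, -, -⟩ := exists_halves T ∅ hT (by simp) (by simp)
  obtain ⟨X, Y, hX, hY, hXY, -, -⟩ := exists_enum P Q hP hQ hPQ
  classical
  obtain ⟨σ, h1, h2⟩ := exists_pairing (G := G') hd' hdn X Y hX hY hXY
  obtain ⟨F, hF, hFc, hF2⟩ := fam_of_pairs_singles (G := G) (κ := Empty)
    (fun i => (X i).1) (fun i => (Y (σ i)).1) (fun k => k.elim)
    (fun i j h => hX (Subtype.ext h)) (fun i j h => σ.injective (hY (Subtype.ext h)))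
    (fun k => k.elim) (fun i j h => hXY _ _ (Subtype.ext h)) (fun i k => k.elim) (fun i k => k.elim)
    (fun i => h1 i) (fun i k hik => h2 i k hik) (fun k => k.elim) (fun k => k.elim)
  refine ⟨F, hF, ?_, hF2⟩
  rw [hFc]
  simp

/-- **Subset theorem.** `9 h(G) ≥ 3 m + ⌊|U|/2⌋` when `α(G) ≤ 2` and all vertices of `U` have few
non-neighbours inside `U`. -/
theorem subset_bound (hα : NoIndepTriple G) (U : Finset V) (d : ℕ)
    (hU : ∀ u ∈ U, (U.filter fun w => w ≠ u ∧ ¬ G.Adj u w).card ≤ d)
    (hnum : 2 ^ 29 * d ^ 4 ≤ U.card ^ 3) :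
    ∃ t, 3 * Fintype.card V + U.card / 2 ≤ 9 * t ∧ HasCliqueMinor G t := by
  obtain ⟨I, hI, hmax⟩ := exists_max_clique G
  obtain ⟨F₁, hF₁, h1⟩ := clique_bound hα I hI hmax
  obtain ⟨F₀, hF₀, hc, hs⟩ := fam_of_subset U d hU hnum
  obtain ⟨F₂, hF₂, h2⟩ := pairs_bound hα I hmax F₀ hF₀ hs
  rcases le_total F₁.card F₂.card with h | h
  · exact ⟨F₂.card, by omega, minor_of_good hF₂⟩
  · exact ⟨F₁.card, by omega, minor_of_good hF₁⟩

/-- **Few non-edges.** If `α(G) ≤ 2` and `G` has at most `e` non-edges with `2^40 e^4 ≤ m^7`, then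
`h(G) ≥ (13 m - 2)/36`. -/
theorem few_nonedges (hα : NoIndepTriple G) (e : ℕ) (he : Gᶜ.edgeFinset.card ≤ e)
    (hnum : 2 ^ 40 * e ^ 4 ≤ Fintype.card V ^ 7) :
    ∃ t, 13 * Fintype.card V ≤ 36 * t + 2 ∧ HasCliqueMinor G t := by
  classical
  set m := Fintype.card V with hm
  rcases Nat.eq_zero_or_pos m with hm0 | hmpos
  · refine ⟨0, by omega, ?_⟩
    exact ⟨fun i => i.elim0, fun i => i.elim0, fun i => i.elim0, fun i => i.elim0, fun i => i.elim0⟩
  set U : Finset V := univ.filter fun v => m * Gᶜ.degree v ≤ 4 * e with hUdef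
  set D : Finset V := univ.filter fun v => ¬ m * Gᶜ.degree v ≤ 4 * e with hD
  have hUD : U.card + D.card = m := by
    rw [hUdef, hD, hm, ← card_univ]
    exact card_filter_add_card_filter_not _
  have hsum : ∑ v, Gᶜ.degree v = 2 * Gᶜ.edgeFinset.card := Gᶜ.sum_degrees_eq_twice_card_edges
  have hDc : 2 * D.card ≤ m := by
    rcases Nat.eq_zero_or_pos e with he0 | hepos
    · have hD0 : D = ∅ := by
        rw [hD, filter_eq_empty_iff]
        intro v _
        have h0 : Gᶜ.edgeFinset.card = 0 := by omega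
        have h1 : ∑ v, Gᶜ.degree v = 0 := by rw [hsum, h0]
        have h2 : Gᶜ.degree v = 0 := (Finset.sum_eq_zero_iff.mp h1) v (mem_univ v)
        simp [h2]
      simp [hD0]
    · have h1 : D.card * (4 * e) ≤ ∑ v ∈ D, m * Gᶜ.degree v := by
        rw [← smul_eq_mul, ← Finset.sum_const]
        refine sum_le_sum fun v hv => ?_
        have := (mem_filter.mp hv).2
        omega
      have h2 : ∑ v ∈ D, m * Gᶜ.degree v ≤ ∑ v, m * Gᶜ.degree v :=
        Finset.sum_le_sum_of_subset (subset_univ _)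
      have h3 : ∑ v, m * Gᶜ.degree v = m * (2 * Gᶜ.edgeFinset.card) := by
        rw [← Finset.mul_sum, hsum]
      have h4 : D.card * (4 * e) ≤ m * (2 * e) := by
        calc _ ≤ _ := h1
          _ ≤ _ := h2
          _ = _ := h3
          _ ≤ _ := Nat.mul_le_mul_left _ (by omega)
      have h5 : (2 * D.card) * (2 * e) ≤ m * (2 * e) := by
        calc (2 * D.card) * (2 * e) = D.card * (4 * e) := by ring
          _ ≤ _ := h4
      exact Nat.le_of_mul_le_mul_right h5 (by omega)
  have hUc : m ≤ 2 * U.card := by omega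
  set d := 4 * e / m with hd
  have hU : ∀ u ∈ U, (U.filter fun w => w ≠ u ∧ ¬ G.Adj u w).card ≤ d := by
    intro u hu
    have h1 : m * Gᶜ.degree u ≤ 4 * e := (mem_filter.mp hu).2
    have h2 : Gᶜ.degree u ≤ d := by
      rw [hd, Nat.le_div_iff_mul_le hmpos]
      rwa [mul_comm]
    refine le_trans ?_ h2
    rw [← SimpleGraph.card_neighborFinset_eq_degree]
    refine card_le_card ?_
    intro w hw
    obtain ⟨-, hw1, hw2⟩ := mem_filter.mp hw
    rw [SimpleGraph.mem_neighborFinset, SimpleGraph.compl_adj]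
    exact ⟨hw1.symm, hw2⟩
  have hnum2 : 2 ^ 29 * d ^ 4 ≤ U.card ^ 3 := by
    have h1 : d * m ≤ 4 * e := Nat.div_mul_le_self _ _
    have h2 : (d * m) ^ 4 ≤ (4 * e) ^ 4 := Nat.pow_le_pow_left h1 4
    have h3 : 2 ^ 32 * d ^ 4 ≤ m ^ 3 := by
      have h4 : m ^ 4 * (2 ^ 32 * d ^ 4) ≤ m ^ 4 * m ^ 3 := by
        calc m ^ 4 * (2 ^ 32 * d ^ 4) = 2 ^ 32 * (d * m) ^ 4 := by ring
          _ ≤ 2 ^ 32 * (4 * e) ^ 4 := Nat.mul_le_mul_left _ h2
          _ = 2 ^ 40 * e ^ 4 := by ring
          _ ≤ m ^ 7 := hnum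
          _ = m ^ 4 * m ^ 3 := by ring
      exact Nat.le_of_mul_le_mul_left h4 (by positivity)
    have h5 : m ^ 3 ≤ (2 * U.card) ^ 3 := Nat.pow_le_pow_left hUc 3
    have h6 : (2 * U.card) ^ 3 = 8 * U.card ^ 3 := by ring
    have h7 : 2 ^ 32 * d ^ 4 = 8 * (2 ^ 29 * d ^ 4) := by ring
    omega
  obtain ⟨t, h1, h2⟩ := subset_bound hα U d hU hnum2
  exact ⟨t, by omega, h2⟩

/-- Fibres of a map onto a finite set, enumerated. -/
theorem exists_fibre_enum {W : Type*} [Fintype W] [DecidableEq W] (π : V → W) (s : ℕ)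
    (hfib : ∀ w, (univ.filter fun v => π v = w).card = s) :
    ∃ e : W → Fin s → V, (∀ w l, π (e w l) = w) ∧ ∀ w, Function.Injective (e w) := by
  classical
  let eq : ∀ w, (univ.filter fun v => π v = w) ≃ Fin s := fun w =>
    (univ.filter fun v => π v = w).equivFinOfCardEq (hfib w)
  refine ⟨fun w l => ((eq w).symm l : V), ?_, ?_⟩
  · intro w l
    exact (mem_filter.mp ((eq w).symm l).2).2
  · intro w l l' h
    exact (eq w).symm.injective (Subtype.ext h)

/-- **Blow-up theorem.** Replace the vertices of a graph `R` with few non-neighbours by cliques of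
equal size `s`, with complete joins over the edges of `R` (and arbitrary edges over the non-edges
of `R`): the result has a `K_⌈m/2⌉` minor. -/
theorem blowup_minor {W : Type*} [Fintype W] [DecidableEq W] (R : SimpleGraph W) [DecidableRel R.Adj]
    (π : V → W) (s : ℕ) (hfib : ∀ w, (univ.filter fun v => π v = w).card = s)
    (hadj : ∀ u v, u ≠ v → (π u = π v ∨ R.Adj (π u) (π v)) → G.Adj u v)
    (d : ℕ) (hdeg : ∀ w, Fintype.card W ≤ R.degree w + 1 + d)
    (hnum : 2 ^ 29 * d ^ 4 ≤ Fintype.card W ^ 3) :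
    HasCliqueMinor G ((Fintype.card V + 1) / 2) := by
  classical
  obtain ⟨e, he1, he2⟩ := exists_fibre_enum π s hfib
  have hcardV : Fintype.card V = Fintype.card W * s := by
    have h1 : Fintype.card V = ∑ w : W, (univ.filter fun v => π v = w).card := by
      rw [← card_univ]
      exact Finset.card_eq_sum_card_fiberwise (fun v _ => mem_coe.mpr (mem_univ (π v)))
    rw [h1, Finset.sum_congr rfl (fun w _ => hfib w)]
    simp [card_univ]
  have hd : ∀ v, (NN R v).card ≤ d := fun v => NN_card_of_degree R d v (hdeg v)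
  -- vertices of different base points, or one base point
  have hne : ∀ w w' l l', w ≠ w' → e w l ≠ e w' l' := by
    intro w w' l l' hw h
    apply hw
    rw [← he1 w l, h, he1]
  have hadj' : ∀ w w' l l', R.Adj w w' → G.Adj (e w l) (e w' l') := by
    intro w w' l l' hR
    refine hadj _ _ (hne _ _ _ _ hR.ne) (Or.inr ?_)
    rw [he1, he1]
    exact hR
  have hsame : ∀ w l l', l ≠ l' → G.Adj (e w l) (e w l') := by
    intro w l l' hl
    refine hadj _ _ (fun h => hl (he2 w h)) (Or.inl ?_)
    rw [he1, he1]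
  set k := Fintype.card W with hk
  rcases Nat.even_or_odd' k with ⟨n, hn | hn⟩
  · -- even number of base points
    have ht : (Fintype.card V + 1) / 2 = n * s := by
      rw [hcardV, hn]
      have : 2 * n * s = 2 * (n * s) := by ring
      omega
    rw [ht]
    have hdn : (64 * d) ^ 4 ≤ n ^ 3 := by
      have h1 : 2 ^ 29 * d ^ 4 ≤ (2 * n) ^ 3 := by rw [← hn]; exact hnum
      have h2 : (2 * n) ^ 3 = 8 * n ^ 3 := by ring
      rw [h2] at h1
      have h3 : (64 * d) ^ 4 = 2 ^ 24 * d ^ 4 := by ring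
      rw [h3]
      omega
    obtain ⟨P, Q, hP, hQ, hPQ, -, -, -⟩ :=
      exists_halves (n := n) (univ : Finset W) ∅ (by rw [card_univ, ← hk, hn]) (by simp) (by simp)
    obtain ⟨X, Y, hX, hY, hXY, -, -⟩ := exists_enum P Q hP hQ hPQ
    obtain ⟨σ, h1, h2⟩ := exists_pairing hd hdn X Y hX hY hXY
    obtain ⟨F, hF, hFc, -⟩ := fam_of_pairs_singles (G := G) (ι := Fin n × Fin s) (κ := Empty)
      (fun i => e (X i.1) i.2) (fun i => e (Y (σ i.1)) i.2) (fun k => k.elim)
      (by
        rintro ⟨i, l⟩ ⟨j, l'⟩ h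
        by_cases hij : i = j
        · subst hij
          simp only [Prod.mk.injEq, true_and]
          exact he2 _ h
        · exact absurd h (hne _ _ _ _ (fun h => hij (hX h))))
      (by
        rintro ⟨i, l⟩ ⟨j, l'⟩ h
        by_cases hij : i = j
        · subst hij
          simp only [Prod.mk.injEq, true_and]
          exact he2 _ h
        · exact absurd h (hne _ _ _ _ (fun h => hij (σ.injective (hY h)))))
      (fun k => k.elim)
      (fun i j => hne _ _ _ _ (hXY _ _)) (fun i k => k.elim) (fun i k => k.elim)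
      (fun i => hadj' _ _ _ _ (h1 i.1))
      (by
        rintro ⟨i, l⟩ ⟨j, l'⟩ hij
        by_cases hi : i = j
        · subst hi
          have hl : l ≠ l' := fun h => hij (by rw [h])
          exact Or.inl (hsame _ _ _ hl)
        · rcases h2 i j hi with h | h | h | h
          · exact Or.inl (hadj' _ _ _ _ h)
          · exact Or.inr (Or.inl (hadj' _ _ _ _ h))
          · exact Or.inr (Or.inr (Or.inl (hadj' _ _ _ _ h)))
          · exact Or.inr (Or.inr (Or.inr (hadj' _ _ _ _ h))))
      (fun k => k.elim) (fun k => k.elim)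
    have := minor_of_good hF
    rw [hFc] at this
    simpa using this
  · -- odd number of base points
    have hdn : (64 * d) ^ 4 ≤ n ^ 3 := by
      rcases Nat.eq_zero_or_pos n with hn0 | hnpos
      · subst hn0
        have h1 : 2 ^ 29 * d ^ 4 ≤ 1 := by
          have : k = 1 := by omega
          rw [this] at hnum
          simpa using hnum
        have hd0 : d = 0 := by
          by_contra hc
          have : 1 ≤ d ^ 4 := Nat.one_le_pow _ _ (Nat.pos_of_ne_zero hc)
          omega
        simp [hd0]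
      · have h1 : 2 ^ 29 * d ^ 4 ≤ (3 * n) ^ 3 := by
          calc _ ≤ k ^ 3 := hnum
            _ ≤ (3 * n) ^ 3 := Nat.pow_le_pow_left (by omega) 3
        have h2 : (3 * n) ^ 3 = 27 * n ^ 3 := by ring
        rw [h2] at h1
        have h3 : (64 * d) ^ 4 = 2 ^ 24 * d ^ 4 := by ring
        rw [h3]
        omega
    have hkpos : 0 < Fintype.card W := by omega
    obtain ⟨v⟩ := Fintype.card_pos_iff.mp hkpos
    have hDU : NN R v ⊆ univ.erase v := by
      intro w hw
      simp only [mem_erase, mem_univ, and_true]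
      exact ((mem_NN R).mp hw).1
    have hDn : (NN R v).card ≤ n := (hd v).trans (by have := numerics_d hdn; omega)
    obtain ⟨P, Q, hP, hQ, hPQ, hDP, hQU, hPU⟩ :=
      exists_halves (n := n) (univ.erase v) (NN R v)
        (by rw [card_erase_of_mem (mem_univ v), card_univ, ← hk, hn]; omega) hDU hDn
    obtain ⟨X, Y, hX, hY, hXY, hXP, hYQ⟩ := exists_enum P Q hP hQ hPQ
    obtain ⟨σ, h1, h2⟩ := exists_pairing hd hdn X Y hX hY hXY
    have hXv : ∀ i, X i ≠ v := fun i => (mem_erase.mp (hPU (hXP i))).1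
    have hYv : ∀ i, Y i ≠ v := fun i => (mem_erase.mp (hQU (hYQ i))).1
    obtain ⟨F, hF, hFc, -⟩ := fam_of_pairs_singles (G := G) (ι := Fin n × Fin s) (κ := Fin s)
      (fun i => e (X i.1) i.2) (fun i => e (Y (σ i.1)) i.2) (fun l => e v l)
      (by
        rintro ⟨i, l⟩ ⟨j, l'⟩ h
        by_cases hij : i = j
        · subst hij
          simp only [Prod.mk.injEq, true_and]
          exact he2 _ h
        · exact absurd h (hne _ _ _ _ (fun h => hij (hX h))))
      (by
        rintro ⟨i, l⟩ ⟨j, l'⟩ h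
        by_cases hij : i = j
        · subst hij
          simp only [Prod.mk.injEq, true_and]
          exact he2 _ h
        · exact absurd h (hne _ _ _ _ (fun h => hij (σ.injective (hY h)))))
      (he2 v)
      (fun i j => hne _ _ _ _ (hXY _ _)) (fun i k => hne _ _ _ _ (hXv _))
      (fun i k => hne _ _ _ _ (hYv _))
      (fun i => hadj' _ _ _ _ (h1 i.1))
      (by
        rintro ⟨i, l⟩ ⟨j, l'⟩ hij
        by_cases hi : i = j
        · subst hi
          have hl : l ≠ l' := fun h => hij (by rw [h])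
          exact Or.inl (hsame _ _ _ hl)
        · rcases h2 i j hi with h | h | h | h
          · exact Or.inl (hadj' _ _ _ _ h)
          · exact Or.inr (Or.inl (hadj' _ _ _ _ h))
          · exact Or.inr (Or.inr (Or.inl (hadj' _ _ _ _ h)))
          · exact Or.inr (Or.inr (Or.inr (hadj' _ _ _ _ h))))
      (by
        intro l i
        right
        have hy := hYQ (σ i.1)
        have hnot : Y (σ i.1) ∉ NN R v := fun hc => (disjoint_left.mp hPQ) (hDP hc) hy
        exact hadj' _ _ _ _ (adj_of_not_NN R (hYv _) hnot))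
      (fun k l hkl => hsame _ _ _ hkl)
    have hm := minor_of_good hF
    rw [hFc] at hm
    refine HasCliqueMinor.mono hm ?_
    simp only [Fintype.card_prod, Fintype.card_fin]
    rw [hcardV, hn]
    rcases Nat.eq_zero_or_pos s with hs | hs
    · subst hs
      simp
    · have h5 : (2 * n + 1) * s + 1 ≤ 2 * (n * s + s) := by nlinarith
      omega

end Vale.Agent.Lib.P060
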